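import Crest.Agent.X262.Tree87.T3

/-!
Row 262, Tree87, part T4: the obstruction space of a tree-like configuration on the target:
regularity, dimension, evaluation, reduction, splitting.
-/

set_option autoImplicit false
set_option linter.unusedSectionVars false

noncomputable section

namespace Crest.Agent.X262.Tree87

open Polynomial Crest.Agent.X262.Bub96 Crest.Agent.X262.Bub96.Tr Crest.Agent.X262.Vb
open Crest.Agent.X277 Crest.Agent.X277.BD

variable {J : Type} [Fintype J] [DecidableEq J] {io : J → Type} [∀ j, Fintype (io j)]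
  [∀ j, DecidableEq (io j)] {A I : Type} [Fintype A] [Fintype I]
  {E E' : Type} [Field E] [Algebra ℂ E] [Field E'] [Algebra ℂ E']

/-- the Jacobian matrix -/
def jacP (T : Tgt io A) : A → Vr io → MvPolynomial (Vr io) ℂ :=
  fun a v => MvPolynomial.pderiv v (T.F a)

theorem Nm_eq (T : Tgt io A) (y : Pnt io E) : T.Nm y = pR (jacP T) y := by
  unfold Tgt.Nm Tgt.jac pR
  rw [Matrix.toLin'_apply']
  rfl

theorem Eb_eq (T : Tgt io A) (z : Cfg io I E) : z.Eb T = Rb T.k (jacP T) z := by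
  simp only [Cfg.Eb, Nm_eq]
  rfl

theorem hz_jac (T : Tgt io A) : HZ T.k (fun v : Vr io => Pi.single v.1 1) (jacP T) := by
  intro a v
  have := (MZ.of_MH (T.hom a)).pderiv v
  have h : (fun j => ((T.k a j : ℕ) : ℤ) - ((Pi.single v.1 1 : J → ℕ) j : ℕ)) =
      (fun j => ((T.k a j : ℕ) : ℤ)) - Pi.single v.1 1 := by
    funext j
    simp only [Pi.sub_apply, Pi.single_apply]
    split_ifs <;> simp
  rw [← h] at this
  exact this

variable {T : Tgt io A}

theorem hz_syz (S : Syz T) : HZ S.e T.k S.ρ := by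
  intro b a
  rcases S.hom b a with h | ⟨κ, h1, h2⟩
  · rw [h]; exact MZ.zero _
  · convert MZ.of_MH h2 using 1
    funext j
    rw [← h1]; simp

theorem mem_ker_syz (S : Syz T) {y : Pnt io E} {σ : A → E} :
    σ ∈ LinearMap.ker (pM S.ρ y).mulVecLin ↔ ∀ b, ∑ a, pv y (S.ρ b a) * σ a = 0 :=
  funext_iff

theorem syz_F (S : Syz T) (y : Pnt io E) (b : Fin S.r) :
    ∑ a, pv y (S.ρ b a) * pv y (T.F a) = 0 := by
  have h2 := congrArg (pv y) (S.syz b)
  simpa only [pv, map_sum, map_mul, map_zero] using h2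

theorem Nm_le_ker (S : Syz T) {y : Pnt io E} (hO : T.On y) :
    T.Nm y ≤ LinearMap.ker (pM S.ρ y).mulVecLin := by
  have h1 : pM S.ρ y * pM (jacP T) y = 0 := by
    ext b v
    have h2 := congrArg (fun q => pv y (MvPolynomial.pderiv v q)) (S.syz b)
    simp only [map_sum, Derivation.leibniz, smul_eq_mul, pv, map_add, map_mul, map_zero] at h2
    refine Eq.trans (Finset.sum_congr rfl fun a _ => ?_) h2
    rw [show MvPolynomial.aeval (fun v : Vr io => y v.1 v.2) (T.F a) = 0 from hO a, zero_mul,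
      add_zero]
    rfl
  rw [Nm_eq]
  rintro _ ⟨w, rfl⟩
  change (pM S.ρ y).mulVec ((pM (jacP T) y).mulVec w) = 0
  rw [Matrix.mulVec_mulVec, h1, Matrix.zero_mulVec]

theorem finrank_ker_add (S : Syz T) (y : Pnt io E) :
    Module.finrank E (pR S.ρ y) + Module.finrank E (LinearMap.ker (pM S.ρ y).mulVecLin) =
      Fintype.card A := by
  rw [pR, LinearMap.finrank_range_add_finrank_ker, Module.finrank_fintype_fun_eq_card]

theorem ker_eq_Nm (S : Syz T) {c : ℕ} {y : Pnt io E} (hO : T.On y) (h : S.Reg c y) :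
    LinearMap.ker (pM S.ρ y).mulVecLin = T.Nm y :=
  le_antisymm (fun σ hσ => h.2 σ ((mem_ker_syz S).1 hσ)) (Nm_le_ker S hO)

theorem finrank_syz (S : Syz T) {c : ℕ} {y : Pnt io E} (hO : T.On y) (h : S.Reg c y) :
    Module.finrank E (pR S.ρ y) + c = Fintype.card A := by
  rw [← finrank_ker_add S y, ker_eq_Nm S hO h, h.1]

theorem reg_of_finrank (S : Syz T) {c : ℕ} {y : Pnt io E} (hO : T.On y)
    (h1 : Module.finrank E (T.Nm y) = c)
    (h2 : Module.finrank E (pR S.ρ y) + c = Fintype.card A) : S.Reg c y := by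
  refine ⟨h1, fun σ hσ => ?_⟩
  have h3 := finrank_ker_add S y
  rw [Submodule.eq_of_le_of_finrank_eq (Nm_le_ker S hO) (by omega)]
  exact (mem_ker_syz S).2 hσ

/-- the second half of `Good` -/
def GoodS (S : Syz T) (c : ℕ) (d : J → ℕ) : Prop :=
  ∀ (E : Type) [Field E] [Algebra ℂ E] [IsAlgClosed E] (t : Tr E J io), t.OK → t.deg = d →
    (∀ x, T.On (t.ev x)) → ∀ x, S.Reg c (t.ev x)

/-- the bound is large -/
def Big (S : Syz T) (N : ℕ) : Prop :=
  (∀ a j, (Fintype.card A + 1) * T.k a j ≤ N) ∧ ∀ b j, (Fintype.card A + 1) * S.e b j ≤ N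

theorem exists_big (S : Syz T) : ∃ N₀, ∀ N, N₀ ≤ N → Big S N := by
  refine ⟨(Fintype.card A + 1) * (∑ a, ∑ j, T.k a j + ∑ b, ∑ j, S.e b j), fun N hN =>
    ⟨fun a j => le_trans (Nat.mul_le_mul_left _ ?_) hN,
      fun b j => le_trans (Nat.mul_le_mul_left _ ?_) hN⟩⟩
  · refine le_trans ?_ (Nat.le_add_right _ _)
    exact (Finset.single_le_sum (f := T.k a) (fun _ _ => Nat.zero_le _) (Finset.mem_univ j)).trans
      (Finset.single_le_sum (f := fun a => ∑ j, T.k a j) (fun _ _ => Nat.zero_le _)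
        (Finset.mem_univ a))
  · refine le_trans ?_ (Nat.le_add_left _ _)
    exact (Finset.single_le_sum (f := S.e b) (fun _ _ => Nat.zero_le _) (Finset.mem_univ j)).trans
      (Finset.single_le_sum (f := fun b => ∑ j, S.e b j) (fun _ _ => Nat.zero_le _)
        (Finset.mem_univ b))

theorem Big.mono {S : Syz T} {N N' : ℕ} (h : Big S N) (hN : N ≤ N') : Big S N' :=
  ⟨fun a j => (h.1 a j).trans hN, fun b j => (h.2 b j).trans hN⟩

theorem Big.k_le {S : Syz T} {N : ℕ} (h : Big S N) (a : A) (j : J) : T.k a j ≤ N :=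
  le_trans (Nat.le_mul_of_pos_left _ (Nat.succ_pos _)) (h.1 a j)

theorem Big.e_le {S : Syz T} {N : ℕ} (h : Big S N) (b : Fin S.r) (j : J) : S.e b j ≤ N :=
  le_trans (Nat.le_mul_of_pos_left _ (Nat.succ_pos _)) (h.2 b j)

/-- the image of the syzygy matrix on a configuration -/
abbrev Qb (S : Syz T) (z : Cfg io I E) : Submodule E (Fin S.r × I → E) := Rb S.e S.ρ z

variable {S : Syz T} {c N : ℕ} {d : J → ℕ} {z : Cfg io I E}

namespace TD

variable {k : Type} [Field k] [Algebra ℂ k] (D : TD d N z k)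

theorem on (hk : ∀ a j, T.k a j ≤ N) (h : z.On T) (x : D.t.Pt) : T.On (D.t.ev x) :=
  fun a => D.pv_eq_zero (T.hom a) (hk a) (fun q => h q a) x

variable [IsAlgClosed k]

theorem reg (hS : GoodS S c d) (hN : Big S N) (h : z.On T) (x : D.t.Pt) : S.Reg c (D.t.ev x) :=
  hS k D.t D.ok D.deg (D.on hN.k_le h) x

theorem finrank_jac (hS : GoodS S c d) (hN : Big S N) (h : z.On T) (x : D.t.Pt) :
    Module.finrank k (pR (jacP T) (D.t.ev x)) = c := by
  rw [← Nm_eq]; exact (D.reg hS hN h x).1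

theorem finrank_rho (hS : GoodS S c d) (hN : Big S N) (h : z.On T) (x : D.t.Pt) :
    Module.finrank k (pR S.ρ (D.t.ev x)) = Fintype.card A - c := by
  have := finrank_syz S (D.on hN.k_le h x) (D.reg hS hN h x)
  omega

include D in
theorem c_le (hS : GoodS S c d) (hN : Big S N) (h : z.On T) : c ≤ Fintype.card A := by
  have := finrank_syz S (D.on hN.k_le h (D.t.root, none)) (D.reg hS hN h _)
  omega

include D in
theorem big_c (hS : GoodS S c d) (hN : Big S N) (h : z.On T) (a : A) (j : J) :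
    (c + 1) * T.k a j ≤ N :=
  le_trans (Nat.mul_le_mul_right _ (Nat.succ_le_succ (D.c_le hS hN h))) (hN.1 a j)

theorem ker_eq (hS : GoodS S c d) (hN : Big S N) (h : z.On T) (x : D.t.Pt) :
    LinearMap.ker (pM S.ρ (D.t.ev x)).mulVecLin = pR (jacP T) (D.t.ev x) := by
  rw [← Nm_eq]; exact ker_eq_Nm S (D.on hN.k_le h x) (D.reg hS hN h x)

theorem vg_ker (hS : GoodS S c d) (hN : Big S N) (h : z.On T) :
    VG T.k D.t fun y => LinearMap.ker (pM S.ρ y).mulVecLin :=
  VG_congr (N := pR (jacP T)) (fun x => (D.ker_eq hS hN h x).symm)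
    (hm_sb (hz_jac T) D.ok).vg_range

/-- the obstruction space is the space of values of the normal sections on the tree -/
theorem Eb_w (hS : GoodS S c d) (hN : Big S N) (h : z.On T) :
    D.w.Eb T = (ES T.k D.t T.Nm).map (vvals T.k D.t D.sp) := by
  rw [Eb_eq, D.Rb_eq (hz_jac T) (D.finrank_jac hS hN h) (D.big_c hS hN h),
    ES_congr (N' := T.Nm) fun x => (Nm_eq T _).symm]

theorem finrank_Eb (hS : GoodS S c d) (hN : Big S N) (h : z.On T) :
    Module.finrank E (z.Eb T) = Module.finrank k (ES T.k D.t T.Nm) := by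
  rw [Eb_eq, D.finrank_Rb (hz_jac T) (D.finrank_jac hS hN h) (D.big_c hS hN h),
    ES_congr (N' := T.Nm) fun x => (Nm_eq T _).symm]

theorem finrank_Qb (hS : GoodS S c d) (hN : Big S N) (h : z.On T) :
    Module.finrank E (Qb S z) = Module.finrank k (ES S.e D.t (pR S.ρ)) :=
  D.finrank_Rb (hz_syz S) (D.finrank_rho hS hN h) fun b j =>
    le_trans (Nat.mul_le_mul_right _ (Nat.succ_le_succ (Nat.sub_le _ _))) (hN.2 b j)

include D in
theorem finrank_add (hS : GoodS S c d) (hN : Big S N) (h : z.On T) :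
    Module.finrank E (z.Eb T) + Module.finrank E (Qb S z) = ∑ a, (dot (T.k a) d + 1) := by
  have h1 := (hm_sb (hz_syz S) D.ok).finrank_add D.ok (D.vg_ker hS hN h)
  rw [D.deg] at h1
  rw [D.finrank_Eb hS hN h, D.finrank_Qb hS hN h, ← h1,
    ES_congr (N := T.Nm) (N' := fun y => LinearMap.ker (pM S.ρ y).mulVecLin) fun x => by
      rw [D.ker_eq hS hN h, Nm_eq]]
  rfl

/-- the normal bundle splits on every vertex, with nonnegative degrees -/
theorem exists_split (hS : GoodS S c d) (hN : Big S N) (h : z.On T) (v : D.t.Vx) :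
    ∃ P : Split (vdz T.k D.t v) (fun p => T.Nm (D.t.ev (v, p))) c, ∀ i, 0 ≤ P.α i := by
  have := (hm_sb (hz_syz S) D.ok).exists_split (D.vg_ker hS hN h) (c := c)
    (fun x => (congrArg (fun U : Submodule k (A → k) => Module.finrank k U)
      (D.ker_eq hS hN h x)).trans (D.finrank_jac hS hN h x)) v
  have h2 : (fun p => T.Nm (D.t.ev (v, p))) =
      fun p => LinearMap.ker (pM S.ρ (D.t.ev (v, p))).mulVecLin :=
    funext fun p => by rw [D.ker_eq hS hN h, Nm_eq]
  rw [h2]; exact this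

/-- Riemann-Roch for the obstruction space -/
theorem rr (hS : GoodS S c d) (hN : Big S N) (h : z.On T)
    (P : ∀ v, Split (vdz T.k D.t v) (fun p => T.Nm (D.t.ev (v, p))) c) (hP : ∀ v i, 0 ≤ (P v).α i) :
    (Module.finrank E (z.Eb T) : ℤ) = c + ∑ v, ∑ i, (P v).α i := by
  rw [D.finrank_Eb hS hN h]
  exact rr_tree D.ok P hP

end TD

namespace TL

theorem reg (h : TL d N z) (hS : GoodS S c d) (hN : Big S N) (hO : z.On T) (q : I) :
    S.Reg c (z.y q) := by
  obtain ⟨k, _, _, _, ⟨D⟩⟩ := h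
  refine reg_of_finrank S (hO q) ?_ ?_
  · rw [Nm_eq, ← D.finrank_pR (hz_jac T), D.finrank_jac hS hN hO]
  · rw [← D.finrank_pR (hz_syz S), D.finrank_rho hS hN hO]
    exact Nat.sub_add_cancel (D.c_le hS hN hO)

theorem finrank_add (h : TL d N z) (hS : GoodS S c d) (hN : Big S N) (hO : z.On T) :
    Module.finrank E (z.Eb T) + Module.finrank E (Qb S z) = ∑ a, (dot (T.k a) d + 1) := by
  obtain ⟨k, _, _, _, ⟨D⟩⟩ := h
  exact D.finrank_add hS hN hO

/-- (EV) the obstruction space surjects on the normal space at every point -/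
theorem map_Eb (h : TL d N z) (hS : GoodS S c d) (hN : Big S N) (hO : z.On T) (q : I) :
    (z.Eb T).map (LinearMap.funLeft E E fun a => (a, q)) = T.Nm (z.y q) := by
  obtain ⟨k, _, _, _, ⟨D⟩⟩ := h
  rw [Eb_eq, Nm_eq]
  exact D.map_Rb (hz_jac T) (D.finrank_jac hS hN hO) (D.big_c hS hN hO) q

theorem ev (h : TL d N z) (hS : GoodS S c d) (hN : Big S N) (hO : z.On T) (q : I) {n : A → E}
    (hn : n ∈ T.Nm (z.y q)) : ∃ σ ∈ z.Eb T, ∀ a, σ (a, q) = n a := by
  rw [← h.map_Eb hS hN hO q] at hn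
  obtain ⟨σ, h1, h2⟩ := hn
  exact ⟨σ, h1, fun a => congrFun h2 a⟩

theorem sv_mem_Vt (h : TL d N z) (hk : ∀ a j, T.k a j ≤ N) : z.sv T ∈ z.Vt T :=
  (Submodule.mem_iInf _).2 fun a => h.pv_mem_V (T.hom a) (hk a)

end TL

/-! ### reduction -/

variable {p : Pl ℂ E ℂ E'}

theorem on_red0 (hp : ∀ c : ℂ, p.r (algebraMap ℂ E c) = algebraMap ℂ E' c)
    (hy : ∀ q j i, z.y q j i ∈ p.V.1) (hO : z.On T) : (z.red0 p).On T := fun q a => by
  change pv (redP p (z.y q)) _ = 0
  rw [← (pv_red hp (hy q) _).2, hO q a, Pl.r_zero]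

/-- the obstruction space commutes with reduction inside the target -/
theorem Eb_red0 (hp : ∀ c : ℂ, p.r (algebraMap ℂ E c) = algebraMap ℂ E' c)
    (hy : ∀ q j i, z.y q j i ∈ p.V.1) (h : TL d N z) (h' : TL d N (z.red0 p))
    (hS : GoodS S c d) (hN : Big S N) (hO : z.On T) :
    (z.red0 p).Eb T = redS p (z.Eb T) ∧ Qb S (z.red0 p) = redS p (Qb S z) := by
  have hO' := on_red0 hp hy hO
  have h1 : redS p (z.Eb T) ≤ (z.red0 p).Eb T := by
    rw [Eb_eq, Eb_eq]
    refine redS_Rb_le hp hy fun q => ?_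
    rw [← Nm_eq, ← Nm_eq, (h.reg hS hN hO q).1]
    exact (h'.reg hS hN hO' q).1
  have h2 : redS p (Qb S z) ≤ Qb S (z.red0 p) := by
    refine redS_Rb_le hp hy fun q => ?_
    have h3 := finrank_syz S (hO q) (h.reg hS hN hO q)
    have h4 : Module.finrank E' (pR S.ρ (redP p (z.y q))) + c = _ :=
      finrank_syz S (hO' q) (h'.reg hS hN hO' q)
    omega
  have h3 := Submodule.finrank_mono h1
  have h4 := Submodule.finrank_mono h2
  have h5 := h.finrank_add hS hN hO
  have h6 := h'.finrank_add hS hN hO'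
  rw [finrank_redS] at h3 h4
  exact ⟨(Submodule.eq_of_le_of_finrank_eq h1 (by rw [finrank_redS]; omega)).symm,
    (Submodule.eq_of_le_of_finrank_eq h2 (by rw [finrank_redS]; omega)).symm⟩

theorem finrank_Eb_red0 (hp : ∀ c : ℂ, p.r (algebraMap ℂ E c) = algebraMap ℂ E' c)
    (hy : ∀ q j i, z.y q j i ∈ p.V.1) (h : TL d N z) (h' : TL d N (z.red0 p))
    (hS : GoodS S c d) (hN : Big S N) (hO : z.On T) :
    Module.finrank E' ((z.red0 p).Eb T) = Module.finrank E (z.Eb T) := by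
  rw [(Eb_red0 hp hy h h' hS hN hO).1, finrank_redS]

/-- the direction of the section lies in the obstruction space of the reduction -/
theorem sv_red0 (hp : ∀ c : ℂ, p.r (algebraMap ℂ E c) = algebraMap ℂ E' c)
    (hy : ∀ q j i, z.y q j i ∈ p.V.1) (hs : z.sv T ∈ z.Vt T)
    (hR : ∀ q, S.Reg c ((z.red0 p).y q)) {u : E} (hu : ∀ x, u * z.sv T x ∈ p.V.1) :
    (fun x => p.r (u * z.sv T x)) ∈ (z.red0 p).Eb T := by
  refine ⟨(Submodule.mem_iInf _).2 fun a => ?_, (Submodule.mem_iInf _).2 fun q => ?_⟩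
  · exact red_mem_redS (u := fun q => u * z.sv T (a, q))
      ((z.V (T.k a)).smul_mem u ((Submodule.mem_iInf _).1 hs a)) fun q => hu _
  · refine (hR q).2 _ fun b => ?_
    have h1 : ∀ a, pv (z.y q) (S.ρ b a) ∈ p.V.1 := fun a => (pv_red hp (hy q) _).1
    have h2 : ∑ a, pv (z.y q) (S.ρ b a) * (u * z.sv T (a, q)) = 0 := by
      rw [← mul_zero u, ← syz_F S (z.y q) b, Finset.mul_sum]
      exact Finset.sum_congr rfl fun a _ => mul_left_comm _ _ _
    have h3 := r_sum Finset.univ fun a _ => mul_mem (h1 a) (hu (a, q))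
    rw [h2, Pl.r_zero] at h3
    rw [h3]
    refine Finset.sum_congr rfl fun a _ => ?_
    rw [Pl.r_mul (h1 a) (hu _), (pv_red hp (hy q) _).2]
    rfl

end Crest.Agent.X262.Tree87
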