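import Crest.Agent.X262.Tree87.P1

/-!
Row 262, Tree87, part P2: splitting of a generated kernel field on `P^1` (minimal polynomial
bases), Riemann-Roch, and the degree of the wedge of `c` sections.
-/

namespace Crest.Agent.X262.Tree87

open Polynomial

variable {k : Type*} [Field k] {ι ι' : Type*}

/-- `N ≅ ⊕ O(α i)` inside `⊕ O(e j)`: a family of sections of `N(-α i)` which is a basis of every
fibre and generates all sections with predictable degrees -/
structure Split (e : ι → ℤ) (N : Option k → Submodule k (ι → k)) (c : ℕ) where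
  α : Fin c → ℤ
  m : Fin c → ι → k[X]
  deg : ∀ i j, DL (tw e (-α i) j) (m i j)
  li : ∀ p, LinearIndependent k fun i => evv (tw e (-α i)) p (m i)
  sp : ∀ p, Submodule.span k (Set.range fun i => evv (tw e (-α i)) p (m i)) = N p
  gen : ∀ l, ∀ σ ∈ Sec (tw e l) N, ∃ q : Fin c → k[X],
    (∀ i, DL (l + α i) (q i)) ∧ σ = ∑ i, q i • m i

theorem evv_some_smul (e : ι → ℤ) (a : k) (q : k[X]) (σ : ι → k[X]) :
    evv e (some a) (q • σ) = q.eval a • evv e (some a) σ := by
  funext i; simp

theorem evv_some_indep (e e' : ι → ℤ) (a : k) (σ : ι → k[X]) :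
    evv e (some a) σ = evv e' (some a) σ := by
  funext i; simp

/-- value of a term `q • m` with predictable degree -/
theorem evv_term {e : ι → ℤ} {l a : ℤ} {q : k[X]} {m : ι → k[X]}
    (hm : ∀ j, DL (tw e (-a) j) (m j)) (hq : DL (l + a) q) :
    (∀ j, DL (tw e l j) ((q • m) j)) ∧
      ∀ p, evv (tw e l) p (q • m) = ev (l + a) p q • evv (tw e (-a)) p m := by
  have := evv_smul hq hm
  rwa [tw_tw, add_neg_cancel_right] at this

/-- predictable degree property -/
theorem predictable {c : ℕ} {e : ι → ℤ} {α : Fin c → ℤ} {m : Fin c → ι → k[X]}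
    (hm : ∀ i j, DL (tw e (-α i) j) (m i j))
    (li : LinearIndependent k fun i => evv (tw e (-α i)) none (m i)) {l : ℤ} (q : Fin c → k[X])
    (h : ∀ j, DL (tw e l j) ((∑ i, q i • m i) j)) (i : Fin c) : DL (l + α i) (q i) := by
  classical
  by_contra hcon
  have hqi : q i ≠ 0 := fun h0 => hcon (h0 ▸ DL.zero _)
  have hlt : l + α i < (q i).natDegree := by
    by_contra h1
    exact hcon ((DL_natDegree _).mono (not_lt.1 h1))
  obtain ⟨i₀, hi₀, hmax⟩ := Finset.exists_max_image (Finset.univ.filter fun i => q i ≠ 0)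
    (fun i => ((q i).natDegree : ℤ) - α i) ⟨i, by simp [hqi]⟩
  set l' := ((q i₀).natDegree : ℤ) - α i₀ with hl
  have hq0 : q i₀ ≠ 0 := by simpa using hi₀
  have hle : ∀ i, DL (l' + α i) (q i) := fun i => by
    by_cases h0 : q i = 0
    · rw [h0]; exact DL.zero _
    · have := hmax i (by simp [h0])
      exact (DL_natDegree _).mono (by omega)
  have hel : l < l' := by
    have := hmax i (by simp [hqi])
    omega
  have h1 : evv (tw e l') none (∑ i, q i • m i) = 0 := by
    funext j
    exact (h j).ev_none_eq_zero (by simp only [tw_apply]; omega)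
  rw [map_sum] at h1
  simp only [fun i => (evv_term (hm i) (hle i)).2 none] at h1
  have h2 := Fintype.linearIndependent_iff.1 li _ h1 i₀
  rw [hl, sub_add_cancel, ev_none_nat] at h2
  exact hq0 (leadingCoeff_eq_zero.1 h2)

theorem evv_mem_span_of_mem {α : Type*} {m : α → ι → k[X]} {σ : ι → k[X]} (a : k)
    (h : σ ∈ Submodule.span k[X] (Set.range m)) :
    evv 0 (some a) σ ∈ Submodule.span k (Set.range fun i => evv 0 (some a) (m i)) := by
  induction h using Submodule.span_induction with
  | mem x hx => obtain ⟨i, rfl⟩ := hx; exact Submodule.subset_span ⟨i, rfl⟩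
  | zero => simp
  | add x y _ _ hx hy => rw [map_add]; exact Submodule.add_mem _ hx hy
  | smul q x _ hx => rw [evv_some_smul]; exact Submodule.smul_mem _ _ hx

/-- a generated kernel field splits, with all `α i ≥ 0` -/
theorem exists_split [Infinite k] [Fintype ι] {ρ : Matrix ι' ι k[X]} {e' : ι' → ℤ} {e : ι → ℤ}
    (hρ : DM e' e ρ) (hG : Gen e (Kr ρ e' e)) :
    ∃ c, ∃ S : Split e (Kr ρ e' e) c, ∀ i, 0 ≤ S.α i := by
  classical
  set M : Submodule k[X] (ι → k[X]) := LinearMap.ker ρ.mulVecLin with hM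
  have hmem : ∀ σ, σ ∈ M ↔ ρ.mulVec σ = 0 := fun σ => by simp [hM]
  obtain ⟨c, b⟩ := Submodule.basisOfPid (Pi.basisFun k[X] ι) M
  have hb : Submodule.span k[X] (Set.range fun i => (b i : ι → k[X])) = M := by
    have := congrArg (Submodule.map M.subtype) b.span_eq
    rw [Submodule.map_span, Submodule.map_top, Submodule.range_subtype, ← Set.range_comp] at this
    exact this
  have hbli : ∀ a : k, LinearIndependent k fun i => evv 0 (some a) (b i : ι → k[X]) := by
    intro a
    rw [Fintype.linearIndependent_iff]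
    intro l hl i
    obtain ⟨σ', hσ'⟩ := exists_eq_X_sub_smul a (∑ i, (C (l i) : k[X]) • (b i : ι → k[X]))
      fun j => by
        have := congrFun hl j
        simpa [Finset.sum_apply, eval_finsetSum] using this
    have hs : (∑ i, (C (l i) : k[X]) • (b i : ι → k[X])) ∈ M :=
      M.sum_mem fun i _ => M.smul_mem _ (b i).2
    have hσM : σ' ∈ M := by
      rw [hmem] at hs ⊢
      rw [hσ', Matrix.mulVec_smul] at hs
      exact (smul_eq_zero.1 hs).resolve_left (X_sub_C_ne_zero a)
    have h1 : (∑ i, (C (l i) : k[X]) • b i : M) = (X - C a : k[X]) • (⟨σ', hσM⟩ : M) := by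
      apply Subtype.ext
      simpa using hσ'
    have h2 := congrArg (fun x => b.repr x i) h1
    simp only [map_sum, map_smul, Module.Basis.repr_self, Finsupp.coe_finsetSum, Finset.sum_apply,
      Finsupp.smul_apply, Finsupp.single_apply, smul_eq_mul, mul_ite, mul_one, mul_zero,
      Finset.sum_ite_eq', Finset.mem_univ, if_true] at h2
    have h3 := congrArg (eval a) h2
    simpa using h3
  -- Fact A
  have hA : ∀ m : Fin c → ι → k[X], Submodule.span k[X] (Set.range m) = M → ∀ a : k,
      LinearIndependent k fun i => evv 0 (some a) (m i) := by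
    intro m hm a
    rw [linearIndependent_iff_card_le_finrank_span]
    have h1 := linearIndependent_iff_card_eq_finrank_span.1 (hbli a)
    rw [h1]
    refine Submodule.finrank_mono ?_
    rw [Submodule.span_le]
    rintro _ ⟨i, rfl⟩
    exact evv_mem_span_of_mem a (by rw [hm]; exact (b i).2)
  obtain ⟨B, hB0⟩ := exists_bound e
  have hex : ∃ s, ∃ (m : Fin c → ι → k[X]) (δ : Fin c → ℕ),
      (∀ i j, DL (tw e (-((B : ℤ) - δ i)) j) (m i j)) ∧
      Submodule.span k[X] (Set.range m) = M ∧ ∑ i, δ i = s := by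
    choose l hl using fun i => exists_DL_tw (tw e (-B)) (b i : ι → k[X])
    refine ⟨_, fun i => b i, l, fun i j => (hl i j).mono (le_of_eq ?_), hb, rfl⟩
    simp only [tw_apply]; ring
  obtain ⟨m, δ, hm, hsp, hs⟩ := Nat.find_spec hex
  set α : Fin c → ℤ := fun i => (B : ℤ) - δ i with hα
  replace hm : ∀ i j, DL (tw e (-α i) j) (m i j) := hm
  have hmM : ∀ i, m i ∈ M := fun i => hsp ▸ Submodule.subset_span ⟨i, rfl⟩
  -- Fact B
  have hB : LinearIndependent k fun i => evv (tw e (-α i)) none (m i) := by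
    rw [Fintype.linearIndependent_iff]
    intro l hl
    by_contra hcon
    push Not at hcon
    obtain ⟨i, hi⟩ := hcon
    obtain ⟨i₀, hi₀, hmax⟩ := Finset.exists_max_image (Finset.univ.filter fun i => l i ≠ 0) δ
      ⟨i, by simp [hi]⟩
    have hl0 : l i₀ ≠ 0 := by simpa using hi₀
    set q : Fin c → k[X] := fun i => C (l i) * X ^ (δ i₀ - δ i) with hq
    have hqd : ∀ i, DL (-α i₀ + α i) (q i) ∧ ev (-α i₀ + α i) none (q i) = l i := fun i => by
      by_cases h0 : l i = 0
      · simp [hq, h0, DL.zero]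
      · have := hmax i (by simp [h0])
        have h2 : -α i₀ + α i = (δ i₀ - δ i : ℕ) := by simp only [hα]; omega
        rw [h2]
        exact ⟨DL_nat.2 (natDegree_C_mul_X_pow_le _ _), by simp [hq]⟩
    set w : ι → k[X] := ∑ i, q i • m i with hw
    have hw1 : ∀ j, DL (tw e (-α i₀) j) (w j) :=
      (Wd k (tw e (-α i₀))).sum_mem fun i _ => (evv_term (hm i) (hqd i).1).1
    have hw2 : evv (tw e (-α i₀)) none w = 0 := by
      rw [hw, map_sum, ← hl]
      refine Finset.sum_congr rfl fun i _ => ?_
      rw [(evv_term (hm i) (hqd i).1).2, (hqd i).2]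
    have hw3 : ∀ j, DL (tw e (-α i₀) j - 1) (w j) := fun j => (hw1 j).pred (congrFun hw2 j)
    have hsp' : Submodule.span k[X] (Set.range (Function.update m i₀ w)) = M := by
      apply le_antisymm
      · rw [Submodule.span_le]
        rintro _ ⟨i, rfl⟩
        by_cases h : i = i₀
        · subst h
          rw [Function.update_self]
          exact M.sum_mem fun i _ => M.smul_mem _ (hmM i)
        · rw [Function.update_of_ne h]; exact hmM i
      · rw [← hsp, Submodule.span_le]
        have hne : ∀ i, i ≠ i₀ →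
            m i ∈ Submodule.span k[X] (Set.range (Function.update m i₀ w)) := fun i h =>
          Submodule.subset_span ⟨i, Function.update_of_ne h _ _⟩
        rintro _ ⟨i, rfl⟩
        by_cases h : i = i₀
        · subst h
          have h1 : m i = (C (l i)⁻¹ : k[X]) • (w - ∑ j ∈ Finset.univ.erase i, q j • m j) := by
            rw [hw, ← Finset.add_sum_erase _ _ (Finset.mem_univ i), add_sub_cancel_right,
              smul_smul]
            simp [hq, ← C_mul, inv_mul_cancel₀ hl0]
          rw [SetLike.mem_coe, h1]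
          refine Submodule.smul_mem _ _ (Submodule.sub_mem _
            (Submodule.subset_span ⟨i, Function.update_self _ _ _⟩)
            (Submodule.sum_mem _ fun j hj => Submodule.smul_mem _ _
              (hne j (Finset.ne_of_mem_erase hj))))
        · exact hne i h
    by_cases h0 : δ i₀ = 0
    · have := (hA _ hsp' 0).ne_zero i₀
      apply this
      simp only [Function.update_self]
      funext j
      have h4 := (hw3 j).eq_zero (by have := hB0 j; simp only [tw_apply, hα, h0]; omega)
      simp [h4]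
    · have hmin := Nat.find_min' hex ⟨Function.update m i₀ w, Function.update δ i₀ (δ i₀ - 1),
        fun i j => ?_, hsp', rfl⟩
      · rw [← hs, Finset.sum_update_of_mem (Finset.mem_univ _),
          ← Finset.add_sum_erase _ _ (Finset.mem_univ i₀), Finset.sdiff_singleton_eq_erase] at hmin
        omega
      · by_cases h : i = i₀
        · subst h
          simp only [Function.update_self]
          refine (hw3 j).mono (le_of_eq ?_)
          simp only [tw_apply, hα]; omega
        · simp only [Function.update_of_ne h]; exact hm i j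
  have hgen : ∀ l, ∀ σ ∈ Sec (tw e l) (Kr ρ e' e), ∃ q : Fin c → k[X],
      (∀ i, DL (l + α i) (q i)) ∧ σ = ∑ i, q i • m i := by
    intro l σ hσ
    obtain ⟨h1, h2⟩ := (mem_Sec_Kr hρ l).1 hσ
    have h3 : σ ∈ Submodule.span k[X] (Set.range m) := hsp ▸ (hmem σ).2 h2
    obtain ⟨q, rfl⟩ := (Submodule.mem_span_range_iff_exists_fun _).1 h3
    exact ⟨q, predictable hm hB q h1, rfl⟩
  have hli : ∀ p, LinearIndependent k fun i => evv (tw e (-α i)) p (m i) := by
    rintro (_ | a)
    · exact hB
    · simpa only [evv_some_indep _ 0] using hA m hsp a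
  refine ⟨c, ⟨α, m, hm, hli, fun p => le_antisymm ?_ fun v hv => ?_, hgen⟩, fun i => ?_⟩
  · rw [Submodule.span_le]
    rintro _ ⟨i, rfl⟩
    exact (mem_Sec.1 ((mem_Sec_Kr hρ _).2 ⟨hm i, (hmem _).1 (hmM i)⟩)).2 p
  · obtain ⟨σ, h1, rfl⟩ := hG p v hv
    obtain ⟨q, hq, rfl⟩ := hgen 0 σ (by rw [tw_zero]; exact h1)
    rw [map_sum]
    refine Submodule.sum_mem _ fun i _ => ?_
    have := (evv_term (hm i) (hq i)).2 p
    rw [tw_zero] at this
    rw [this]
    exact Submodule.smul_mem _ _ (Submodule.subset_span ⟨i, rfl⟩)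
  · have h0 := (mem_Sec.1 ((mem_Sec_Kr hρ _).2 ⟨hm i, (hmem _).1 (hmM i)⟩)).2 (some 0)
    obtain ⟨σ, h1, h2⟩ := hG _ _ h0
    obtain ⟨q, hq, rfl⟩ := hgen 0 σ (by rw [tw_zero]; exact h1)
    by_contra hneg
    have h3 : q i = 0 := (hq i).eq_zero (by change ¬ 0 ≤ α i at hneg; omega)
    rw [map_sum] at h2
    simp only [evv_some_smul] at h2
    have h4 := Fintype.linearIndependent_iff.1 (hli (some 0))
      (fun j => (q j).eval 0 - if j = i then 1 else 0) (by
        simp only [sub_smul, Finset.sum_sub_distrib, ite_smul, one_smul, zero_smul,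
          Finset.sum_ite_eq', Finset.mem_univ, if_true]
        rw [← h2, sub_eq_zero]
        exact Finset.sum_congr rfl fun j _ => by rw [evv_some_indep _ e]) i
    simp [h3] at h4

theorem mem_degreeLT_toNat {n : ℤ} {f : k[X]} : f ∈ degreeLT k (n + 1).toNat ↔ DL n f := by
  rw [mem_degreeLT, degree_lt_iff_coeff_zero]
  exact forall_congr' fun j => imp_congr_left (by omega)

namespace Split

variable {e : ι → ℤ} {N : Option k → Submodule k (ι → k)} {c : ℕ} (S : Split e N c)

include S in
theorem finrank (p : Option k) : Module.finrank k (N p) = c := by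
  rw [← S.sp p, finrank_span_eq_card (S.li p), Fintype.card_fin]

theorem m_mem (i : Fin c) : S.m i ∈ Sec (tw e (-S.α i)) N :=
  mem_Sec.2 ⟨S.deg i, fun p => S.sp p ▸ Submodule.subset_span ⟨i, rfl⟩⟩

theorem sum_mem {l : ℤ} {q : Fin c → k[X]} (hq : ∀ i, DL (l + S.α i) (q i)) :
    ∑ i, q i • S.m i ∈ Sec (tw e l) N := by
  refine Submodule.sum_mem _ fun i _ => mem_Sec.2 ⟨(evv_term (S.deg i) (hq i)).1, fun p => ?_⟩
  rw [(evv_term (S.deg i) (hq i)).2]
  exact (N p).smul_mem _ ((mem_Sec.1 (S.m_mem i)).2 p)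

theorem gen' (h : ∀ i, 0 ≤ S.α i) : Gen e N :=
  gen_of_span S.α S.m h S.m_mem fun p => (S.sp p).ge

theorem eq_zero_of_sum [Infinite k] {q : Fin c → k[X]} (h : ∑ i, q i • S.m i = 0) (i : Fin c) :
    q i = 0 := by
  apply Polynomial.funext
  intro a
  have h1 := congrArg (evv 0 (some a)) h
  rw [map_sum, map_zero] at h1
  simp only [evv_some_smul] at h1
  have h2 := Fintype.linearIndependent_iff.1 (S.li (some a)) (fun j => (q j).eval a) (by
    rw [← h1]
    exact Finset.sum_congr rfl fun j _ => by rw [evv_some_indep _ 0]) i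
  simpa using h2

/-- the parametrisation of the sections -/
noncomputable def par (l : ℤ) :
    (∀ i : Fin c, degreeLT k (l + S.α i + 1).toNat) →ₗ[k] (ι → k[X]) where
  toFun q := ∑ i, (q i : k[X]) • S.m i
  map_add' q q' := by simp [add_smul, Finset.sum_add_distrib]
  map_smul' a q := by simp [Finset.smul_sum]

theorem range_par (l : ℤ) : LinearMap.range (S.par l) = Sec (tw e l) N := by
  apply le_antisymm
  · rintro _ ⟨q, rfl⟩
    exact S.sum_mem fun i => mem_degreeLT_toNat.1 (q i).2
  · intro σ hσ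
    obtain ⟨q, hq, rfl⟩ := S.gen l σ hσ
    exact ⟨fun i => ⟨q i, mem_degreeLT_toNat.2 (hq i)⟩, rfl⟩

include S in
theorem finite_Sec (l : ℤ) : Module.Finite k (Sec (tw e l) N) := by
  have : ∀ n, Module.Finite k (degreeLT k n) := fun n =>
    Module.Finite.equiv (degreeLTEquiv k n).symm
  rw [← S.range_par l]
  infer_instance

/-- Riemann-Roch, general form -/
theorem finrank_Sec [Infinite k] (l : ℤ) :
    Module.finrank k (Sec (tw e l) N) = ∑ i, (l + S.α i + 1).toNat := by
  have : ∀ n, Module.Finite k (degreeLT k n) := fun n =>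
    Module.Finite.equiv (degreeLTEquiv k n).symm
  have hinj : Function.Injective (S.par l) := by
    rw [injective_iff_map_eq_zero]
    intro q hq
    funext i
    exact Subtype.ext (S.eq_zero_of_sum hq i)
  rw [← S.range_par l, LinearMap.finrank_range_of_inj hinj, Module.finrank_pi_fintype]
  refine Finset.sum_congr rfl fun i _ => ?_
  rw [(degreeLTEquiv k _).finrank_eq, Module.finrank_fin_fun]

/-- Riemann-Roch -/
theorem rr [Infinite k] (h : ∀ i, -1 ≤ S.α i) :
    (Module.finrank k (Sec e N) : ℤ) = c + ∑ i, S.α i := by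
  have := S.finrank_Sec 0
  rw [tw_zero] at this
  rw [this]
  push_cast
  rw [Finset.sum_congr rfl fun i _ => show (((0 + S.α i + 1).toNat : ℕ) : ℤ) = 1 + S.α i by
    have := h i; omega, Finset.sum_add_distrib]
  simp

end Split

/-- minor of `c` vectors along the coordinates `R` -/
def minor {A : Type*} [CommRing A] {c : ℕ} (v : Fin c → ι → A) (R : Fin c → ι) : A :=
  (Matrix.of fun i j => v i (R j)).det

theorem exists_minor_ne_zero [Fintype ι] {c : ℕ} {v : Fin c → ι → k}
    (h : LinearIndependent k v) : ∃ R, minor v R ≠ 0 := by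
  classical
  set A : Matrix (Fin c) ι k := Matrix.of v with hA
  have h1 : A.rank = c := by
    have := LinearIndependent.rank_matrix (M := A) h
    simpa using this
  rw [Matrix.rank_eq_finrank_span_cols] at h1
  obtain ⟨κ, a, ha, hsp, hli⟩ := exists_linearIndependent' k A.col
  have : Finite κ := Finite.of_injective a ha
  have := Fintype.ofFinite κ
  have h2 : Fintype.card κ = c := by
    rw [linearIndependent_iff_card_eq_finrank_span.1 hli, Set.finrank, hsp, h1]
  let ε : Fin c ≃ κ := (Fintype.equivFinOfCardEq h2).symm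
  refine ⟨a ∘ ε, ?_⟩
  have h3 : LinearIndependent k (Matrix.of fun i j => v i ((a ∘ ε) j)).col :=
    hli.comp ε ε.injective
  exact ((Matrix.isUnit_iff_isUnit_det _).1
    (Matrix.linearIndependent_cols_iff_isUnit.1 h3)).ne_zero

theorem linearIndependent_of_minor {c : ℕ} {v : Fin c → ι → k} {R : Fin c → ι}
    (h : minor v R ≠ 0) : LinearIndependent k v := by
  classical
  have h1 : LinearIndependent k (Matrix.of fun i j => v i (R j)).row :=
    Matrix.linearIndependent_rows_iff_isUnit.2
      ((Matrix.isUnit_iff_isUnit_det _).2 (isUnit_iff_ne_zero.2 h))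
  exact LinearIndependent.of_comp (LinearMap.funLeft k k R) h1

/-- determinant of a matrix whose entry `(i, j)` has formal degree `a i + b j` -/
theorem ev_det {c : ℕ} (A : Matrix (Fin c) (Fin c) k[X]) (a b : Fin c → ℤ)
    (h : ∀ i j, DL (a i + b j) (A i j)) :
    DL (∑ i, a i + ∑ j, b j) A.det ∧ ∀ p,
      ev (∑ i, a i + ∑ j, b j) p A.det = (Matrix.of fun i j => ev (a i + b j) p (A i j)).det := by
  have h1 : ∀ σ : Equiv.Perm (Fin c), DL (∑ i, a i + ∑ j, b j) (∏ i, A (σ i) i) ∧ ∀ p,
      ev (∑ i, a i + ∑ j, b j) p (∏ i, A (σ i) i) = ∏ i, ev (a (σ i) + b i) p (A (σ i) i) := by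
    intro σ
    have := ev_prod Finset.univ (fun i => a (σ i) + b i) (fun i => A (σ i) i) (fun i _ => h _ _)
    rwa [Finset.sum_add_distrib, Equiv.sum_comp σ a] at this
  have h2 : ∀ σ : Equiv.Perm (Fin c),
      ((Equiv.Perm.sign σ : ℤ) : k[X]) = C ((Equiv.Perm.sign σ : ℤ) : k) := fun σ => by simp
  constructor
  · rw [Matrix.det_apply']
    refine DL.sum fun σ _ => ?_
    rw [h2, ← smul_eq_C_mul]
    exact (h1 σ).1.smul _
  · intro p
    rw [Matrix.det_apply', Matrix.det_apply', map_sum]
    refine Finset.sum_congr rfl fun σ _ => ?_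
    rw [h2, ← smul_eq_C_mul, map_smul, smul_eq_mul, (h1 σ).2]
    rfl

theorem ev_minor {c : ℕ} {e : ι → ℤ} {v : Fin c → ι → k[X]} {d : Fin c → ℤ}
    (h : ∀ i j, DL (tw e (d i) j) (v i j)) (R : Fin c → ι) :
    DL (∑ i, d i + ∑ j, e (R j)) (minor v R) ∧ ∀ p,
      ev (∑ i, d i + ∑ j, e (R j)) p (minor v R) = minor (fun i => evv (tw e (d i)) p (v i)) R :=
  ev_det _ d (fun j => e (R j)) fun i j => h i (R j)

namespace Split

variable {e : ι → ℤ} {N : Option k → Submodule k (ι → k)} {c : ℕ} (S : Split e N c)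

/-- formal degree of the `R`-th Pluecker coordinate of the splitting -/
def pd (R : Fin c → ι) : ℤ := ∑ j, e (R j) - ∑ i, S.α i

theorem pd_eq (R : Fin c → ι) : S.pd R = ∑ i, -S.α i + ∑ j, e (R j) := by
  rw [pd, Finset.sum_neg_distrib]; ring

theorem DL_minor (R : Fin c → ι) : DL (S.pd R) (minor S.m R) := by
  rw [S.pd_eq]; exact (ev_minor S.deg R).1

/-- the Pluecker tuple of the splitting has no zero on `P^1` -/
theorem minor_ne_zero [Fintype ι] (p : Option k) : ∃ R, ev (S.pd R) p (minor S.m R) ≠ 0 := by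
  obtain ⟨R, hR⟩ := exists_minor_ne_zero (S.li p)
  exact ⟨R, by rw [S.pd_eq, (ev_minor S.deg R).2]; exact hR⟩

/-- the wedge of sections `τ j` of `N(l j)` is `h` times the Pluecker tuple, `h` a form of degree
`∑ l + ∑ α` -/
theorem wedge {l : Fin c → ℤ} {τ : Fin c → ι → k[X]} (hτ : ∀ j, τ j ∈ Sec (tw e (l j)) N) :
    ∃ h : k[X], DL (∑ j, l j + ∑ i, S.α i) h ∧ ∀ R, minor τ R = h * minor S.m R := by
  classical
  choose q hq hτq using fun j => S.gen (l j) (τ j) (hτ j)
  refine ⟨(Matrix.of q).det, (ev_det (Matrix.of q) l S.α hq).1, fun R => ?_⟩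
  unfold minor
  rw [← Matrix.det_mul]
  congr 1
  ext1 i j
  simp only [Matrix.of_apply, Matrix.mul_apply]
  rw [hτq i]
  simp [Finset.sum_apply]

end Split

end Crest.Agent.X262.Tree87
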