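import Crest.Agent.X262.Vb.Cfg
import Crest.Agent.X262.Tree87.P2

/-!
Row 262, Tree87: linear algebra of `mapS`, `sclS`, `redS`.
-/

set_option autoImplicit false

noncomputable section

namespace Crest.Agent.X262.Tree87

open Crest.Agent.X277 Crest.Agent.X277.BD Crest.Agent.X262.Vb

variable {E E' : Type} [Field E] [Algebra ℂ E] [Field E'] [Algebra ℂ E'] {P Q : Type}

/-! ### extension of scalars -/

theorem map_mem_mapS (α : E →ₐ[ℂ] E') {U : Submodule E (P → E)} {u : P → E} (h : u ∈ U) :
    (fun x => α (u x)) ∈ mapS α U := Submodule.subset_span ⟨u, h, rfl⟩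

/-- `α`-semilinear retractions -/
def IsRt (α : E →ₐ[ℂ] E') (l : E' →+ E) : Prop := ∀ a y, l (α a * y) = a * l y

theorem mem_mapS_iff [Finite P] (α : E →ₐ[ℂ] E') {U : Submodule E (P → E)} {w : P → E'} :
    w ∈ mapS α U ↔ ∀ l : E' →+ E, IsRt α l → (fun x => l (w x)) ∈ U := by
  classical
  constructor
  · intro h
    induction h using Submodule.span_induction with
    | mem x hx =>
      obtain ⟨u, hu, rfl⟩ := hx
      intro l hl
      have : (fun x => l (α (u x))) = l 1 • u := funext fun x => by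
        rw [← mul_one (α (u x)), hl, Pi.smul_apply, smul_eq_mul, mul_comm]
      rw [this]; exact U.smul_mem _ hu
    | zero => intro l _; simp only [Pi.zero_apply, map_zero]; exact U.zero_mem
    | add x y _ _ hx hy =>
      intro l hl
      simp only [Pi.add_apply, map_add]
      exact U.add_mem (hx l hl) (hy l hl)
    | smul c x _ hx =>
      intro l hl
      exact hx (l.comp (AddMonoidHom.mulLeft c)) fun a y => by
        change l (c * (α a * y)) = a * l (c * y)
        rw [mul_left_comm, hl]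
  · intro h
    let _ : Algebra E E' := (α : E →+* E').toAlgebra
    let b := Module.Basis.ofVectorSpace E E'
    have := Fintype.ofFinite P
    let s := Finset.univ.biUnion fun x => (b.repr (w x)).support
    have hw : w = ∑ i ∈ s, b i • fun x => α (b.repr (w x) i) := by
      funext x
      simp only [Finset.sum_apply, Pi.smul_apply, smul_eq_mul]
      conv_lhs => rw [← b.linearCombination_repr (w x), Finsupp.linearCombination_apply,
        Finsupp.sum_of_support_subset _ (s := s) (Finset.subset_biUnion_of_mem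
          (fun x => (b.repr (w x)).support) (Finset.mem_univ x)) _ (by simp)]
      exact Finset.sum_congr rfl fun i _ => by rw [Algebra.smul_def, mul_comm]; rfl
    rw [hw]
    refine Submodule.sum_mem _ fun i _ => Submodule.smul_mem _ _ (map_mem_mapS α ?_)
    exact h (b.coord i).toAddMonoidHom fun a y => (b.coord i).map_smul a y

theorem exists_isRt (α : E →ₐ[ℂ] E') : ∃ l : E' →+ E, IsRt α l ∧ l 1 = 1 := by
  let _ : Algebra E E' := (α : E →+* E').toAlgebra
  obtain ⟨l, hl⟩ := Module.Projective.exists_dual_eq_one E (one_ne_zero (α := E'))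
  exact ⟨l.toAddMonoidHom, fun a y => l.map_smul a y, hl⟩

theorem map_mem_mapS_iff [Finite P] (α : E →ₐ[ℂ] E') {U : Submodule E (P → E)} {u : P → E} :
    (fun x => α (u x)) ∈ mapS α U ↔ u ∈ U := by
  refine ⟨fun h => ?_, map_mem_mapS α⟩
  obtain ⟨l, hl, h1⟩ := exists_isRt α
  have := (mem_mapS_iff α).1 h l hl
  convert this using 2 with x
  rw [← mul_one (α (u x)), hl, h1, mul_one]

theorem mapS_mono (α : E →ₐ[ℂ] E') {U U' : Submodule E (P → E)} (h : U ≤ U') :
    mapS α U ≤ mapS α U' :=
  Submodule.span_mono fun _ ⟨u, hu, hw⟩ => ⟨u, h hu, hw⟩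

theorem mapS_le_iff [Finite P] (α : E →ₐ[ℂ] E') {U U' : Submodule E (P → E)} :
    mapS α U ≤ mapS α U' ↔ U ≤ U' :=
  ⟨fun h _ hu => (map_mem_mapS_iff α).1 (h (map_mem_mapS α hu)), mapS_mono α⟩

theorem mapS_injective [Finite P] (α : E →ₐ[ℂ] E') :
    Function.Injective (mapS α : Submodule E (P → E) → Submodule E' (P → E')) := fun _ _ h =>
  le_antisymm ((mapS_le_iff α).1 h.le) ((mapS_le_iff α).1 h.ge)

theorem mapS_inf [Finite P] (α : E →ₐ[ℂ] E') (U U' : Submodule E (P → E)) :
    mapS α (U ⊓ U') = mapS α U ⊓ mapS α U' := by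
  ext w
  simp only [Submodule.mem_inf, mem_mapS_iff]
  exact ⟨fun h => ⟨fun l hl => (h l hl).1, fun l hl => (h l hl).2⟩,
    fun h l hl => ⟨h.1 l hl, h.2 l hl⟩⟩

theorem mapS_iInf [Finite P] (α : E →ₐ[ℂ] E') {ι : Type*} (U : ι → Submodule E (P → E)) :
    mapS α (⨅ i, U i) = ⨅ i, mapS α (U i) := by
  ext w
  simp only [Submodule.mem_iInf, mem_mapS_iff]
  exact ⟨fun h i l hl => h l hl i, fun h l hl i => h i l hl⟩

theorem mapS_comap [Finite P] [Finite Q] (α : E →ₐ[ℂ] E') (f : Q → P) (U : Submodule E (Q → E)) :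
    mapS α (U.comap (LinearMap.funLeft E E f)) = (mapS α U).comap (LinearMap.funLeft E' E' f) := by
  ext w
  simp only [Submodule.mem_comap, mem_mapS_iff]
  rfl

theorem mapS_span (α : E →ₐ[ℂ] E') {ι : Type*} (v : ι → P → E) :
    mapS α (Submodule.span E (Set.range v)) =
      Submodule.span E' (Set.range fun i x => α (v i x)) := by
  apply le_antisymm
  · rw [mapS, Submodule.span_le]
    rintro _ ⟨u, hu, rfl⟩
    induction hu using Submodule.span_induction with
    | mem x hx => obtain ⟨i, rfl⟩ := hx; exact Submodule.subset_span ⟨i, rfl⟩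
    | zero => simp only [Pi.zero_apply, map_zero]; exact Submodule.zero_mem _
    | add x y _ _ hx hy => simp only [Pi.add_apply, map_add]; exact Submodule.add_mem _ hx hy
    | smul c x _ hx =>
      simp only [Pi.smul_apply, smul_eq_mul, map_mul]
      exact Submodule.smul_mem _ (α c) hx
  · rw [Submodule.span_le]
    rintro _ ⟨i, rfl⟩
    exact map_mem_mapS α (Submodule.subset_span ⟨i, rfl⟩)

theorem mapS_map (α : E →ₐ[ℂ] E') (f : Q → P) (U : Submodule E (P → E)) :
    mapS α (U.map (LinearMap.funLeft E E f)) = (mapS α U).map (LinearMap.funLeft E' E' f) := by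
  rw [mapS, mapS, Submodule.map_span]
  congr 1
  ext w
  constructor
  · rintro ⟨_, ⟨u, hu, rfl⟩, rfl⟩; exact ⟨_, ⟨u, hu, rfl⟩, rfl⟩
  · rintro ⟨_, ⟨u, hu, rfl⟩, rfl⟩; exact ⟨_, ⟨u, hu, rfl⟩, rfl⟩

omit [Algebra ℂ E] in
theorem range_eq_span_col [Fintype Q] (M : Matrix P Q E) :
    LinearMap.range M.mulVecLin = Submodule.span E (Set.range fun j i => M i j) :=
  Matrix.range_mulVecLin M

theorem mapS_range [Fintype Q] (α : E →ₐ[ℂ] E') (M : Matrix P Q E) :
    mapS α (LinearMap.range M.mulVecLin) = LinearMap.range (M.map α).mulVecLin := by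
  rw [range_eq_span_col, range_eq_span_col, mapS_span]; rfl

theorem minor_map {R S : Type*} [CommRing R] [CommRing S] (φ : R →+* S) {c : ℕ}
    (v : Fin c → P → R) (r : Fin c → P) : φ (minor v r) = minor (fun i x => φ (v i x)) r := by
  unfold minor
  rw [RingHom.map_det]; rfl

omit [Algebra ℂ E] in
theorem exists_basis_fun [Finite P] (U : Submodule E (P → E)) :
    ∃ v : Fin (Module.finrank E U) → P → E, LinearIndependent E v ∧
      Submodule.span E (Set.range v) = U := by
  let b := Module.finBasis E U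
  refine ⟨fun i => b i, b.linearIndependent.map' U.subtype (Submodule.ker_subtype U), ?_⟩
  have := congrArg (Submodule.map U.subtype) b.span_eq
  rw [Submodule.map_span, Submodule.map_top, Submodule.range_subtype, ← Set.range_comp] at this
  exact this

theorem finrank_mapS [Finite P] (α : E →ₐ[ℂ] E') (U : Submodule E (P → E)) :
    Module.finrank E' (mapS α U) = Module.finrank E U := by
  have := Fintype.ofFinite P
  obtain ⟨v, h1, h2⟩ := exists_basis_fun U
  obtain ⟨r, hr⟩ := exists_minor_ne_zero h1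
  have h3 : LinearIndependent E' fun i x => α (v i x) :=
    linearIndependent_of_minor (R := r) (by
      rw [← show (α : E →+* E') (minor v r) = minor (fun i x => α (v i x)) r from minor_map _ v r]
      exact (map_ne_zero _).2 hr)
  conv_lhs => rw [← h2, mapS_span, finrank_span_eq_card h3, Fintype.card_fin]

theorem mapS_ker [Fintype Q] [Finite P] (α : E →ₐ[ℂ] E') (M : Matrix P Q E) :
    mapS α (LinearMap.ker M.mulVecLin) = LinearMap.ker (M.map α).mulVecLin := by
  refine Submodule.eq_of_le_of_finrank_eq ?_ ?_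
  · rw [mapS, Submodule.span_le]
    rintro _ ⟨u, hu, rfl⟩
    funext i
    have := congrArg α (congrFun (show M.mulVec u = 0 from hu) i)
    simpa [Matrix.mulVec, dotProduct] using this
  · have h1 := LinearMap.finrank_range_add_finrank_ker M.mulVecLin
    have h2 := LinearMap.finrank_range_add_finrank_ker (M.map α).mulVecLin
    rw [← mapS_range, finrank_mapS] at h2
    rw [finrank_mapS]
    simp only [Module.finrank_fintype_fun_eq_card] at h1 h2
    omega

theorem mapS_mapS {E'' : Type} [Field E''] [Algebra ℂ E''] [Finite P] (α : E →ₐ[ℂ] E')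
    (β : E' →ₐ[ℂ] E'') (U : Submodule E (P → E)) : mapS β (mapS α U) = mapS (β.comp α) U := by
  obtain ⟨v, -, h2⟩ := exists_basis_fun U
  rw [← h2, mapS_span, mapS_span, mapS_span]; rfl

/-! ### scaling -/

omit [Algebra ℂ E] in
theorem mem_sclS {c : P → E} {U : Submodule E (P → E)} {w : P → E} :
    w ∈ sclS c U ↔ ∃ u ∈ U, (fun x => c x * u x) = w := Iff.rfl

omit [Algebra ℂ E] in
theorem mul_mem_sclS_iff {c : P → E} (hc : ∀ x, c x ≠ 0) {U : Submodule E (P → E)} {u : P → E} :
    (fun x => c x * u x) ∈ sclS c U ↔ u ∈ U := by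
  refine ⟨fun ⟨u', h1, h2⟩ => ?_, fun h => ⟨u, h, rfl⟩⟩
  rwa [show u = u' from funext fun x => mul_left_cancel₀ (hc x) (congrFun h2 x).symm]

omit [Algebra ℂ E] in
theorem mem_sclS_iff {c : P → E} (hc : ∀ x, c x ≠ 0) {U : Submodule E (P → E)} {w : P → E} :
    w ∈ sclS c U ↔ (fun x => (c x)⁻¹ * w x) ∈ U := by
  rw [← mul_mem_sclS_iff hc (u := fun x => (c x)⁻¹ * w x)]
  simp only [mul_inv_cancel_left₀ (hc _)]

omit [Algebra ℂ E] in
theorem finrank_sclS {c : P → E} (hc : ∀ x, c x ≠ 0) (U : Submodule E (P → E)) :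
    Module.finrank E (sclS c U) = Module.finrank E U :=
  (Submodule.equivMapOfInjective _ (fun _ _ h => funext fun x =>
    mul_left_cancel₀ (hc x) (congrFun h x)) U).finrank_eq.symm

omit [Algebra ℂ E] in
theorem sclS_sclS (c c' : P → E) (U : Submodule E (P → E)) :
    sclS c (sclS c' U) = sclS (fun x => c x * c' x) U := by
  ext w
  constructor
  · rintro ⟨_, ⟨u, hu, rfl⟩, rfl⟩; exact ⟨u, hu, funext fun x => by simp [mul_assoc]⟩
  · rintro ⟨u, hu, rfl⟩; exact ⟨_, ⟨u, hu, rfl⟩, funext fun x => by simp [mul_assoc]⟩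

omit [Algebra ℂ E] in
theorem sclS_one (U : Submodule E (P → E)) : sclS (fun _ => 1) U = U := by
  ext w
  rw [mem_sclS_iff fun _ => one_ne_zero]; simp

theorem mapS_sclS (α : E →ₐ[ℂ] E') (c : P → E) (U : Submodule E (P → E)) :
    mapS α (sclS c U) = sclS (fun x => α (c x)) (mapS α U) := by
  rw [mapS, mapS, sclS, sclS, Submodule.map_span]
  congr 1
  ext w
  constructor
  · rintro ⟨_, ⟨u, hu, rfl⟩, rfl⟩; exact ⟨_, ⟨u, hu, rfl⟩, funext fun x => by simp⟩
  · rintro ⟨_, ⟨u, hu, rfl⟩, rfl⟩; exact ⟨_, ⟨u, hu, rfl⟩, funext fun x => by simp⟩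

/-! ### reduction -/

variable {p : Pl ℂ E ℂ E'}

theorem red_mem_redS {U : Submodule E (P → E)} {u : P → E} (h : u ∈ U) (hi : ∀ x, u x ∈ p.V.1) :
    (fun x => p.r (u x)) ∈ redS p U := Submodule.subset_span ⟨u, h, hi, rfl⟩

theorem redS_le {U : Submodule E (P → E)} {W : Submodule E' (P → E')}
    (h : ∀ u ∈ U, (∀ x, u x ∈ p.V.1) → (fun x => p.r (u x)) ∈ W) : redS p U ≤ W := by
  rw [redS, Submodule.span_le]
  rintro _ ⟨u, h1, h2, rfl⟩
  exact h u h1 h2

theorem redS_mono {U U' : Submodule E (P → E)} (h : U ≤ U') : redS p U ≤ redS p U' :=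
  redS_le fun _ hu hi => red_mem_redS (h hu) hi

theorem r_sum {ι : Type*} (s : Finset ι) {f : ι → E} (h : ∀ i ∈ s, f i ∈ p.V.1) :
    p.r (∑ i ∈ s, f i) = ∑ i ∈ s, p.r (f i) := by
  classical
  induction s using Finset.induction_on with
  | empty => simp
  | insert a s ha ih =>
    rw [Finset.sum_insert ha, Finset.sum_insert ha, Pl.r_add (h a (Finset.mem_insert_self _ _))
      (sum_mem fun i hi => h i (Finset.mem_insert_of_mem hi)),
      ih fun i hi => h i (Finset.mem_insert_of_mem hi)]

theorem r_prod {ι : Type*} (s : Finset ι) {f : ι → E} (h : ∀ i ∈ s, f i ∈ p.V.1) :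
    p.r (∏ i ∈ s, f i) = ∏ i ∈ s, p.r (f i) := by
  classical
  induction s using Finset.induction_on with
  | empty => simp
  | insert a s ha ih =>
    rw [Finset.prod_insert ha, Finset.prod_insert ha, Pl.r_mul (h a (Finset.mem_insert_self _ _))
      (prod_mem fun i hi => h i (Finset.mem_insert_of_mem hi)),
      ih fun i hi => h i (Finset.mem_insert_of_mem hi)]

/-- a nonzero vector has a multiple which is integral with one coordinate equal to `1` -/
theorem exists_prim [Finite P] (V : RZ ℂ E) {u : P → E} (h : u ≠ 0) :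
    ∃ x₀, u x₀ ≠ 0 ∧ ∀ x, (u x₀)⁻¹ * u x ∈ V.1 := by
  obtain ⟨x₁, hx₁⟩ := Function.ne_iff.1 h
  have : Nonempty P := ⟨x₁⟩
  obtain ⟨x₀, hx₀⟩ := Finite.exists_max fun x => V.v (u x)
  have h0 : u x₀ ≠ 0 := by
    intro h0
    have := hx₀ x₁
    rw [h0, map_zero, le_zero_iff] at this
    exact RZ.ne_zero_iff.2 hx₁ this
  exact ⟨x₀, h0, fun x => by rw [inv_mul_eq_div]; exact (RZ.le_iff h0).1 (hx₀ x)⟩

theorem finrank_redS [Finite P] (p : Pl ℂ E ℂ E') (U : Submodule E (P → E)) :
    Module.finrank E' (redS p U) = Module.finrank E U := by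
  induction hn : Module.finrank E U generalizing U with
  | zero =>
    rw [Submodule.finrank_eq_zero] at hn ⊢
    subst hn
    refine eq_bot_iff.2 (redS_le fun u hu _ => ?_)
    rw [(Submodule.mem_bot _).1 hu]
    simp only [Pi.zero_apply, Pl.r_zero]; exact Submodule.zero_mem _
  | succ n ih =>
    have hU : U ≠ ⊥ := by rintro rfl; simp at hn
    obtain ⟨u₁, hu₁, hne⟩ := Submodule.exists_mem_ne_zero_of_ne_bot hU
    obtain ⟨x₀, h0, hint⟩ := exists_prim p.V hne
    set u : P → E := fun x => (u₁ x₀)⁻¹ * u₁ x with hu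
    have huU : u ∈ U := U.smul_mem (u₁ x₀)⁻¹ hu₁
    have hu1 : u x₀ = 1 := inv_mul_cancel₀ h0
    set U' : Submodule E (P → E) := U ⊓ LinearMap.ker (LinearMap.proj x₀) with hU'
    have hsub : ∀ w ∈ U, w - w x₀ • u ∈ U' := fun w hw =>
      ⟨U.sub_mem hw (U.smul_mem _ huU), by simp [hu1]⟩
    have h1 : U = U' ⊔ Submodule.span E {u} := by
      refine le_antisymm (fun w hw => ?_) (sup_le inf_le_left ?_)
      · rw [← sub_add_cancel w (w x₀ • u)]
        exact Submodule.add_mem_sup (hsub w hw)
          (Submodule.smul_mem _ _ (Submodule.mem_span_singleton_self u))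
      · rw [Submodule.span_le, Set.singleton_subset_iff]; exact huU
    have h2 : u ∉ U' := fun h => by
      have : u x₀ = 0 := h.2
      rw [hu1] at this; exact one_ne_zero this
    have h3 : Module.finrank E U' = n := by
      have := Submodule.finrank_sup_span_singleton h2
      rw [← h1] at this
      omega
    have h4 : redS p U = redS p U' ⊔ Submodule.span E' {fun x => p.r (u x)} := by
      refine le_antisymm (redS_le fun w hw hi => ?_) (sup_le (redS_mono inf_le_left) ?_)
      · have h5 : ∀ x, (w - w x₀ • u) x ∈ p.V.1 := fun x =>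
          sub_mem (hi x) (mul_mem (hi x₀) (hint x))
        have h6 : (fun x => p.r (w x)) =
            (fun x => p.r ((w - w x₀ • u) x)) + p.r (w x₀) • fun x => p.r (u x) := by
          funext x
          simp only [Pi.add_apply, Pi.sub_apply, Pi.smul_apply, smul_eq_mul]
          rw [Pl.r_sub (hi x) (mul_mem (hi x₀) (hint x)), Pl.r_mul (hi x₀) (hint x)]
          ring
        rw [h6]
        exact Submodule.add_mem_sup (red_mem_redS (hsub w hw) h5)
          (Submodule.smul_mem _ _ (Submodule.mem_span_singleton_self _))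
      · rw [Submodule.span_le, Set.singleton_subset_iff]; exact red_mem_redS huU hint
    have h7 : (fun x => p.r (u x)) ∉ redS p U' := fun h => by
      have h8 : redS p U' ≤ LinearMap.ker (LinearMap.proj x₀) := redS_le fun w hw _ => by
        have : w x₀ = 0 := hw.2
        simp [this]
      have : p.r (u x₀) = 0 := h8 h
      rw [hu1, Pl.r_one] at this; exact one_ne_zero this
    rw [h4, Submodule.finrank_sup_span_singleton h7, ih U' h3]

theorem r_mulVec [Fintype Q] {M : Matrix P Q E} (hM : ∀ i j, M i j ∈ p.V.1) {u : Q → E}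
    (hu : ∀ j, u j ∈ p.V.1) (i : P) :
    M.mulVec u i ∈ p.V.1 ∧ p.r (M.mulVec u i) = (M.map p.r).mulVec (fun j => p.r (u j)) i := by
  unfold Matrix.mulVec dotProduct
  refine ⟨sum_mem fun j _ => mul_mem (hM i j) (hu j), ?_⟩
  rw [r_sum _ fun j _ => mul_mem (hM i j) (hu j)]
  exact Finset.sum_congr rfl fun j _ => Pl.r_mul (hM i j) (hu j)

theorem redS_ker_le [Fintype Q] {M : Matrix P Q E} (hM : ∀ i j, M i j ∈ p.V.1) :
    redS p (LinearMap.ker M.mulVecLin) ≤ LinearMap.ker (M.map p.r).mulVecLin :=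
  redS_le fun u hu hi => funext fun i => by
    have h1 : M.mulVec u = 0 := hu
    have := (r_mulVec hM hi i).2
    rw [h1, Pi.zero_apply, Pl.r_zero] at this
    exact this.symm

theorem range_le_redS [Fintype Q] {M : Matrix P Q E} (hM : ∀ i j, M i j ∈ p.V.1) :
    LinearMap.range (M.map p.r).mulVecLin ≤ redS p (LinearMap.range M.mulVecLin) := by
  rw [range_eq_span_col, range_eq_span_col, Submodule.span_le]
  rintro _ ⟨j, rfl⟩
  exact red_mem_redS (u := fun i => M i j) (Submodule.subset_span ⟨j, rfl⟩) fun i => hM i j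

theorem redS_range_eq [Fintype Q] [Finite P] {M : Matrix P Q E} (hM : ∀ i j, M i j ∈ p.V.1)
    (h : Module.finrank E' (LinearMap.range (M.map p.r).mulVecLin) =
      Module.finrank E (LinearMap.range M.mulVecLin)) :
    redS p (LinearMap.range M.mulVecLin) = LinearMap.range (M.map p.r).mulVecLin :=
  (Submodule.eq_of_le_of_finrank_eq (range_le_redS hM) (by rw [finrank_redS, h])).symm

theorem redS_comap_le (f : Q → P) (U : Submodule E (Q → E)) :
    redS p (U.comap (LinearMap.funLeft E E f)) ≤ (redS p U).comap (LinearMap.funLeft E' E' f) :=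
  redS_le fun _ hu hi => red_mem_redS (U := U) hu fun x => hi (f x)

end Crest.Agent.X262.Tree87
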