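import Crest.Agent.X262.Vb.Cfg
import Crest.Agent.X262.Bub96.Tree

/-!
Row 262, Tree87: tree-like configurations (definition only).
-/

set_option autoImplicit false

noncomputable section

namespace Crest.Agent.X262.Tree87

open Crest.Agent.X262.Bub96 Crest.Agent.X262.Vb

variable {J : Type} [Fintype J] {io : J → Type} {I : Type} {E : Type} [Field E] [Algebra ℂ E]

/-- values of scalar sections at a family of points of a tree -/
def vals {k : Type} [Field k] (t : Tr k J io) (sp : I → t.Pt) (κ : J → ℕ) :
    (t.Vx → Polynomial k) →ₗ[k] (I → k) :=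
  LinearMap.pi fun q => t.valL κ (sp q)

/-- after extension to `k` and a gauge transformation, `z` is the configuration of a norming
family of points on a tree of degree `d` (in all multidegrees up to `N`) -/
structure TD (d : J → ℕ) (N : ℕ) (z : Cfg io I E) (k : Type) [Field k] [Algebra ℂ k] where
  /-- the extension -/
  α : E →ₐ[ℂ] k
  /-- the tree -/
  t : Tr k J io
  /-- the points -/
  sp : I → t.Pt
  /-- the gauge -/
  c : I → J → k
  ok : t.OK
  deg : t.deg = d
  c_ne : ∀ q j, c q j ≠ 0
  y_eq : ∀ q, ((z.map α).gau c).y q = t.ev (sp q)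
  V_eq : ∀ κ : J → ℕ, (∀ j, κ j ≤ N) → ((z.map α).gau c).V κ = (t.Sec κ).map (vals t sp κ)
  nrm : ∀ κ : J → ℕ, (∀ j, κ j ≤ N) → t.Norming κ (Set.range sp)

/-- tree-like configurations -/
def TL (d : J → ℕ) (N : ℕ) (z : Cfg io I E) : Prop :=
  ∃ (k : Type) (_ : Field k) (_ : Algebra ℂ k) (_ : IsAlgClosed k), Nonempty (TD d N z k)

end Crest.Agent.X262.Tree87
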