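import Crest.Agent.X262.Tree87.T4
import Crest.Agent.X262.Vb.Bas0
import Crest.Agent.X262.Bub96.Lat

/-!
Row 262, Tree87: `RankStmt`.
-/

set_option autoImplicit false
set_option linter.unusedSectionVars false

noncomputable section

namespace Crest.Agent.X262.Tree87

open Polynomial Crest.Agent.X262.Bub96.Tr Crest.Agent.X262.Vb Crest.Agent.X262.Hb
open Crest.Agent.X277 Crest.Agent.X277.BD
open Crest.Agent.X262.Bub96 (tl_red nz_pt hv)

variable {J : Type} [Fintype J] [DecidableEq J] {io : J → Type} [∀ j, Fintype (io j)]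
  [∀ j, DecidableEq (io j)] {A I : Type} [Fintype A] [Fintype I]
  {K E L : Type} [Field K] [Algebra ℂ K] [Field E] [Algebra ℂ E] [Field L] [Algebra ℂ L]

theorem cfg_ext {z w : Cfg io I K} (h1 : z.y = w.y) (h2 : z.V = w.V) : z = w := by
  cases z; cases w; cases h1; cases h2; rfl

theorem gau_gau (z : Cfg io I K) (c c' : I → J → K) :
    (z.gau c).gau c' = z.gau fun q j => c' q j * c q j :=
  cfg_ext (funext fun _ => funext fun _ => funext fun _ => (mul_assoc _ _ _).symm)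
    (funext fun κ => (sclS_sclS _ _ _).trans (by
      simp only [Cfg.gau, mul_pow, Finset.prod_mul_distrib]))

theorem red0_gau (p : Pl ℂ K ℂ E) {z : Cfg io I K} (hy : ∀ q j i, z.y q j i ∈ p.V.1)
    {c : I → J → K} (hc : ∀ q j, p.V.v (c q j) = 1) :
    (z.gau c).red0 p = (z.red0 p).gau fun q j => p.r (c q j) := by
  have h1 : ∀ q j, c q j ∈ p.V.1 := fun q j => RZ.le_one_iff.1 (hc q j).le
  refine cfg_ext (funext fun q => funext fun j => funext fun i => Pl.r_mul (h1 q j) (hy q j i))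
    (funext fun κ => (redS_sclS p (fun q => by simp [hc]) _).trans ?_)
  change sclS _ _ = sclS _ _
  congr 1
  funext q
  rw [r_prod _ fun j _ => pow_mem (h1 q j) _]
  exact Finset.prod_congr rfl fun j _ => Pl.r_pow (h1 q j) _

theorem red0_comp (p : LP K E) (q : LP E L) {z : Cfg io I K} (hy : ∀ x j i, z.y x j i ∈ p.V.1) :
    z.red0 (p.comp q).toPl = (z.red0 p.toPl).red0 q.toPl :=
  cfg_ext (funext fun x => redP_comp p q (hy x)) (funext fun _ => redS_comp p q _)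

theorem nrm_ne (z : Cfg io I K) (V : RZ ℂ K) (q : I) (j : J) : z.nrm V q j ≠ 0 :=
  inv_ne_zero (gen_ne _ _)

theorem prim_nrm {z : Cfg io I K} (h : z.NZ) (V : RZ ℂ K) (q : I) :
    Prim V ((z.gau (z.nrm V)).y q) :=
  prim_scl (h q) fun j => by rw [Cfg.nrm, map_inv₀, v_gen]

/-- two primitive gauges have reductions that differ by a gauge -/
theorem red0_prim (p : Pl ℂ K ℂ E) {z : Cfg io I K} (h : z.NZ) {c c' : I → J → K}
    (hc : ∀ q j, c q j ≠ 0) (hc' : ∀ q j, c' q j ≠ 0) (hp : ∀ q, Prim p.V ((z.gau c).y q))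
    (hp' : ∀ q, Prim p.V ((z.gau c').y q)) :
    (∀ q j, p.V.v (c' q j / c q j) = 1) ∧
      (z.gau c').red0 p = ((z.gau c).red0 p).gau fun q j => p.r (c' q j / c q j) := by
  have h1 : ∀ q j, p.V.v (c' q j / c q j) = 1 := fun q j => by
    rw [map_div₀, Prim.v_eq (h q) (hc' q) (hp' q), Prim.v_eq (h q) (hc q) (hp q),
      div_self (inv_ne_zero (val_ne _ _))]
  refine ⟨h1, ?_⟩
  rw [← red0_gau p (fun q j => ((hp q) j).1) h1, gau_gau]
  simp only [div_mul_cancel₀ _ (hc _ _)]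

theorem nz_red {z : Cfg io I K} (h : z.NZ) (p : Pl ℂ K ℂ E) : (z.red p).NZ :=
  fun q => (prim_nrm h p.V q).nz_red

/-- iterated reduction is a gauge of the reduction along the composite place -/
theorem red_red0 (p : LP K E) (q : LP E L) {z : Cfg io I K} (h : z.NZ) {c' : I → J → E}
    (hc' : ∀ x j, c' x j ≠ 0) (hp' : ∀ x, Prim q.V (((z.red p.toPl).gau c').y x)) :
    ∃ e : I → J → L, (∀ x j, e x j ≠ 0) ∧
      ((z.red p.toPl).gau c').red0 q.toPl = (z.red (p.comp q).toPl).gau e := by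
  have h2 := fun x => prim_comp.1 (prim_nrm h (p.comp q).V x)
  obtain ⟨h3, h4⟩ := red0_prim p.toPl h (nrm_ne z p.V) (nrm_ne z (p.comp q).V) (prim_nrm h p.V)
    fun x => (h2 x).1
  have h5 : z.red (p.comp q).toPl = ((z.red p.toPl).gau fun x j =>
      p.r (z.nrm (p.comp q).V x j / z.nrm p.V x j)).red0 q.toPl := by
    rw [Cfg.red, red0_comp p q fun x j => ((h2 x).1 j).1, h4]; rfl
  obtain ⟨h6, h7⟩ := red0_prim q.toPl (nz_red h p.toPl)
    (fun x j => Pl.r_ne_zero_iff.2 (h3 x j)) hc'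
    (fun x => by have := (h2 x).2; rw [Cfg.red, ← h4]; exact this) hp'
  exact ⟨_, fun x j => Pl.r_ne_zero_iff.2 (h6 x j), by rw [h7, h5]⟩

variable {d : J → ℕ} {N : ℕ}

theorem nz_cfg (ξ : Dat io d I K) : ξ.cfg.NZ := fun q => nz_pt ξ (ξ.x q)

theorem pv_mem_cfg (ξ : Dat io d I K) {F : MvPolynomial (Vr io) ℂ} {κ : J → ℕ} (hF : MH F κ) :
    (fun q => pv (ξ.cfg.y q) F) ∈ ξ.cfg.V κ := by
  have h1 : (∑ j, (κ j : ℤ) * d j) = (dot κ d : ℕ) := by
    simp only [dot]; push_cast; rfl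
  have h2 := (MZ.of_MH hF).sb ξ.cp.1
  rw [h1] at h2
  exact ⟨sb ξ.f F, mem_degreeLE.2 (degree_le_of_natDegree_le (DL_nat.1 h2.1)),
    funext fun q => (ev_eq_hv _ _ _).symm.trans (h2.2 (ξ.x q))⟩

theorem pv_mem_gau {z : Cfg io I K} {F : MvPolynomial (Vr io) ℂ} {κ : J → ℕ} (hF : MH F κ)
    (h : (fun q => pv (z.y q) F) ∈ z.V κ) (c : I → J → K) :
    (fun q => pv ((z.gau c).y q) F) ∈ (z.gau c).V κ :=
  ⟨_, h, funext fun q => (Node22.pv_scl hF (c q) (z.y q)).symm⟩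

theorem sv_mem_cfg (T : Tgt io A) (ξ : Dat io d I K) (c : I → J → K) :
    (ξ.cfg.gau c).sv T ∈ (ξ.cfg.gau c).Vt T :=
  (Submodule.mem_iInf _).2 fun a => pv_mem_gau (T.hom a) (pv_mem_cfg ξ (T.hom a)) c

/-- iterated reductions of normed data are tree-like -/
theorem tl_red0 {ξ : Dat io d I K} (h : ξ.NrmUp N) (p : LP K E) (q : LP E L) {c' : I → J → E}
    (hc' : ∀ x j, c' x j ≠ 0) (hp' : ∀ x, Prim q.V (((ξ.cfg.red p.toPl).gau c').y x)) :
    TL d N (((ξ.cfg.red p.toPl).gau c').red0 q.toPl) := by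
  obtain ⟨e, he, h1⟩ := red_red0 p q (nz_cfg ξ) hc' hp'
  rw [h1]
  exact (tl_red h _).gau he

theorem on_gau {T : Tgt io A} {z : Cfg io I K} (h : z.On T) (c : I → J → K) : (z.gau c).On T :=
  fun q => Node22.on_scl T (h q) (c q)

theorem rankStmt : RankStmt := by
  intro J _ _ io _ _ A _ T c d ⟨_, S, hS⟩
  obtain ⟨N, hN⟩ := exists_big S
  refine ⟨N, fun ξ h p hO => ⟨fun q c' hc' hp' => ?_, fun u hu => ?_⟩⟩
  · exact (Eb_red0 q.lnr (fun x j => (hp' x j).1) ((tl_red h _).gau hc') (tl_red0 h p q hc' hp')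
      hS (hN N le_rfl) (on_gau hO c')).1
  · exact sv_red0 p.lnr (fun x j => (prim_nrm (nz_cfg ξ) p.V x j).1) (sv_mem_cfg T ξ _)
      ((tl_red h p.toPl).reg hS (hN N le_rfl) hO) hu

end Crest.Agent.X262.Tree87
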