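import Crest.Agent.X262.Tree87.T2
import Crest.Agent.X262.Tree87.Lin
import Crest.Agent.X262.Tree87.TL

/-!
Row 262, Tree87, part T3: spaces of sections with values in the range of a homogeneous matrix,
on configurations; behaviour under extension, gauge, reduction; description on a tree.
-/

set_option autoImplicit false
set_option linter.unusedSectionVars false

noncomputable section

namespace Crest.Agent.X262.Tree87

open Polynomial Crest.Agent.X262.Bub96 Crest.Agent.X262.Bub96.Tr Crest.Agent.X262.Vb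
open Crest.Agent.X277 Crest.Agent.X277.BD

variable {J : Type} [Fintype J] [DecidableEq J] {io : J → Type} [∀ j, Fintype (io j)]
  [∀ j, DecidableEq (io j)] {A B I : Type} [Fintype A] [Fintype B] [Fintype I]
  {E E' : Type} [Field E] [Algebra ℂ E] [Field E'] [Algebra ℂ E']

/-- value of a matrix of polynomials at a point -/
def pM (ρ : B → A → MvPolynomial (Vr io) ℂ) (y : Pnt io E) : Matrix B A E :=
  fun b a => pv y (ρ b a)

/-- the range of a matrix of polynomials at a point -/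
def pR (ρ : B → A → MvPolynomial (Vr io) ℂ) (y : Pnt io E) : Submodule E (B → E) :=
  LinearMap.range (pM ρ y).mulVecLin

/-- `ρ` is a map `⊕ O(kk a) → ⊕ O(kk' b)` -/
def HZ (kk' : B → J → ℕ) (kk : A → J → ℕ) (ρ : B → A → MvPolynomial (Vr io) ℂ) : Prop :=
  ∀ b a, MZ (ρ b a) fun j => (kk' b j : ℤ) - kk a j

/-- sections of `⊕ O(kk' b)` with values in the range of `ρ` -/
def Rb (kk' : B → J → ℕ) (ρ : B → A → MvPolynomial (Vr io) ℂ) (z : Cfg io I E) :
    Submodule E (B × I → E) :=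
  (⨅ b, (z.V (kk' b)).comap (LinearMap.funLeft E E fun q => (b, q))) ⊓
    ⨅ q, (pR ρ (z.y q)).comap (LinearMap.funLeft E E fun b => (b, q))

theorem mem_Rb {kk' : B → J → ℕ} {ρ : B → A → MvPolynomial (Vr io) ℂ} {z : Cfg io I E}
    {σ : B × I → E} : σ ∈ Rb kk' ρ z ↔
      (∀ b, (fun q => σ (b, q)) ∈ z.V (kk' b)) ∧ ∀ q, (fun b => σ (b, q)) ∈ pR ρ (z.y q) := by
  simp only [Rb, Submodule.mem_inf, Submodule.mem_iInf]; rfl

theorem pv_map (α : E →ₐ[ℂ] E') (y : Pnt io E) (q : MvPolynomial (Vr io) ℂ) :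
    pv (fun j i => α (y j i)) q = α (pv y q) := by
  unfold pv
  rw [← AlgHom.comp_apply, MvPolynomial.comp_aeval]

theorem pR_map (α : E →ₐ[ℂ] E') (ρ : B → A → MvPolynomial (Vr io) ℂ) (y : Pnt io E) :
    pR ρ (fun j i => α (y j i)) = mapS α (pR ρ y) := by
  rw [pR, pR, mapS_range]
  congr 2
  funext b a
  exact pv_map α y _

theorem Rb_map (α : E →ₐ[ℂ] E') (kk' : B → J → ℕ) (ρ : B → A → MvPolynomial (Vr io) ℂ)
    (z : Cfg io I E) : Rb kk' ρ (z.map α) = mapS α (Rb kk' ρ z) := by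
  simp only [Rb, mapS_inf, mapS_iInf, mapS_comap, ← pR_map]
  rfl

theorem chr_ne' {c : J → E} (hc : ∀ j, c j ≠ 0) (κ : J → ℕ) : ∏ j, c j ^ κ j ≠ 0 :=
  Finset.prod_ne_zero_iff.2 fun j _ => pow_ne_zero _ (hc j)

variable {kk' : B → J → ℕ} {kk : A → J → ℕ} {ρ : B → A → MvPolynomial (Vr io) ℂ}

theorem HZ.pM_scl (h : HZ kk' kk ρ) {c : J → E} (hc : ∀ j, c j ≠ 0) (y : Pnt io E) (b : B)
    (a : A) : pM ρ (fun j i => c j * y j i) b a * ∏ j, c j ^ kk a j =
      (∏ j, c j ^ kk' b j) * pM ρ y b a := by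
  rw [pM, (h b a).pv_scl hc, mul_right_comm, ← Finset.prod_mul_distrib]
  congr 1
  refine Finset.prod_congr rfl fun j _ => ?_
  rw [← zpow_natCast, ← zpow_natCast, ← zpow_add₀ (hc j), sub_add_cancel]

theorem HZ.mulVec_scl (h : HZ kk' kk ρ) {c : J → E} (hc : ∀ j, c j ≠ 0) (y : Pnt io E)
    (u : A → E) : (pM ρ fun j i => c j * y j i).mulVec (fun a => (∏ j, c j ^ kk a j) * u a) =
      fun b => (∏ j, c j ^ kk' b j) * (pM ρ y).mulVec u b := by
  funext b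
  simp only [Matrix.mulVec, dotProduct, Finset.mul_sum]
  exact Finset.sum_congr rfl fun a _ => by rw [← mul_assoc, h.pM_scl hc, mul_assoc]

theorem HZ.pR_scl (h : HZ kk' kk ρ) {c : J → E} (hc : ∀ j, c j ≠ 0) (y : Pnt io E) :
    pR ρ (fun j i => c j * y j i) = sclS (fun b => ∏ j, c j ^ kk' b j) (pR ρ y) := by
  ext w
  constructor
  · rintro ⟨u, rfl⟩
    refine ⟨_, ⟨fun a => (∏ j, c j ^ kk a j)⁻¹ * u a, rfl⟩, ?_⟩
    have := h.mulVec_scl hc y fun a => (∏ j, c j ^ kk a j)⁻¹ * u a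
    simp only [mul_inv_cancel_left₀ (chr_ne' hc _)] at this
    exact this.symm
  · rintro ⟨_, ⟨u, rfl⟩, rfl⟩
    exact ⟨_, h.mulVec_scl hc y u⟩

theorem HZ.Rb_gau (h : HZ kk' kk ρ) {c : I → J → E} (hc : ∀ q j, c q j ≠ 0) (z : Cfg io I E) :
    Rb kk' ρ (z.gau c) = sclS (fun x => ∏ j, c x.2 j ^ kk' x.1 j) (Rb kk' ρ z) := by
  ext w
  rw [mem_sclS_iff fun x : B × I => chr_ne' (hc x.2) (kk' x.1), mem_Rb, mem_Rb]
  refine and_congr (forall_congr' fun b => ?_) (forall_congr' fun q => ?_)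
  · exact mem_sclS_iff fun q => chr_ne' (hc q) _
  · change _ ∈ pR ρ (fun j i => c q j * z.y q j i) ↔ _
    rw [h.pR_scl (hc q)]
    exact mem_sclS_iff fun b => chr_ne' (hc q) _

theorem HZ.le_of_ne (h : HZ kk' kk ρ) {y : Pnt io E} {b : B} {a : A} (h0 : pM ρ y b a ≠ 0) :
    kk a ≤ kk' b := fun j => by
  have := (h b a).nonneg (fun h1 => h0 (by rw [pM, h1, pv, map_zero])) j
  change kk a j ≤ kk' b j
  omega

/-! ### reduction -/

variable {p : Pl ℂ E ℂ E'}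

theorem pv_red (hp : ∀ c : ℂ, p.r (algebraMap ℂ E c) = algebraMap ℂ E' c) {y : Pnt io E}
    (hy : ∀ j i, y j i ∈ p.V.1) (q : MvPolynomial (Vr io) ℂ) :
    pv y q ∈ p.V.1 ∧ p.r (pv y q) = pv (redP p y) q := by
  unfold pv
  induction q using MvPolynomial.induction_on with
  | C a => simp only [MvPolynomial.aeval_C]; exact ⟨p.V.2 a, hp a⟩
  | add a b ha hb =>
    simp only [map_add]
    exact ⟨add_mem ha.1 hb.1, by rw [Pl.r_add ha.1 hb.1, ha.2, hb.2]⟩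
  | mul_X a v ha =>
    simp only [map_mul, MvPolynomial.aeval_X]
    exact ⟨mul_mem ha.1 (hy _ _), by rw [Pl.r_mul ha.1 (hy _ _), ha.2]; rfl⟩

theorem pM_red (hp : ∀ c : ℂ, p.r (algebraMap ℂ E c) = algebraMap ℂ E' c) {y : Pnt io E}
    (hy : ∀ j i, y j i ∈ p.V.1) : pM ρ (redP p y) = (pM ρ y).map p.r :=
  funext fun b => funext fun a => (pv_red hp hy (ρ b a)).2.symm

theorem redS_pR (hp : ∀ c : ℂ, p.r (algebraMap ℂ E c) = algebraMap ℂ E' c) {y : Pnt io E}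
    (hy : ∀ j i, y j i ∈ p.V.1)
    (h : Module.finrank E' (pR ρ (redP p y)) = Module.finrank E (pR ρ y)) :
    redS p (pR ρ y) = pR ρ (redP p y) := by
  rw [pR, pM_red hp hy] at h
  rw [pR, pR, pM_red hp hy]
  exact redS_range_eq (fun b a => (pv_red hp hy _).1) h

theorem redS_Rb_le (hp : ∀ c : ℂ, p.r (algebraMap ℂ E c) = algebraMap ℂ E' c) {z : Cfg io I E}
    (hy : ∀ q j i, z.y q j i ∈ p.V.1)
    (h : ∀ q, Module.finrank E' (pR ρ (redP p (z.y q))) = Module.finrank E (pR ρ (z.y q))) :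
    redS p (Rb kk' ρ z) ≤ Rb kk' ρ (z.red0 p) := by
  refine redS_le fun u hu hi => mem_Rb.2 ⟨fun b => ?_, fun q => ?_⟩
  · exact red_mem_redS ((mem_Rb.1 hu).1 b) fun q => hi _
  · change _ ∈ pR ρ (redP p (z.y q))
    rw [← redS_pR hp (hy q) (h q)]
    exact red_mem_redS ((mem_Rb.1 hu).2 q) fun b => hi _

/-! ### on a tree -/

/-- values of vector sections at a family of points -/
def vvals {k : Type} [Field k] (kk' : B → J → ℕ) (t : Tr k J io) (sp : I → t.Pt) :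
    (t.Vx → B → k[X]) →ₗ[k] (B × I → k) :=
  LinearMap.pi fun x => (LinearMap.proj x.1).comp (vv kk' t (sp x.2))

theorem vvals_apply {k : Type} [Field k] (kk' : B → J → ℕ) (t : Tr k J io) (sp : I → t.Pt)
    (s : t.Vx → B → k[X]) (x : B × I) : vvals kk' t sp s x = vv kk' t (sp x.2) s x.1 := rfl

theorem ES_congr {k : Type*} [Field k] {kk : A → J → ℕ} {t : Tr k J io}
    {N N' : ((j : J) → io j → k) → Submodule k (A → k)} (h : ∀ x, N (t.ev x) = N' (t.ev x)) :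
    ES kk t N = ES kk t N' := by
  ext s; simp only [mem_ES, h]

theorem VG_congr {k : Type*} [Field k] {kk : A → J → ℕ} {t : Tr k J io}
    {N N' : ((j : J) → io j → k) → Submodule k (A → k)} (h : ∀ x, N (t.ev x) = N' (t.ev x))
    (hG : VG kk t N) : VG kk t N' := fun v => by
  have := hG v
  simp only [h] at this
  exact this

namespace TD

variable {d : J → ℕ} {N : ℕ} {z : Cfg io I E} {k : Type} [Field k] [Algebra ℂ k] (D : TD d N z k)

/-- the configuration over `k` in the gauge of the tree -/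
abbrev w : Cfg io I k := (z.map D.α).gau D.c

theorem ev_sp (q : I) : D.t.ev (D.sp q) = fun j i => D.c q j * D.α (z.y q j i) := (D.y_eq q).symm

theorem mem_V {κ : J → ℕ} (hκ : ∀ j, κ j ≤ N) {u : I → k} :
    u ∈ D.w.V κ ↔ ∃ s, D.t.IsSec κ s ∧ ∀ q, Tr.val κ D.t s (D.sp q) = u q := by
  rw [D.V_eq κ hκ]
  exact ⟨fun ⟨s, h1, h2⟩ => ⟨s, h1, fun q => congrFun h2 q⟩,
    fun ⟨s, h1, h2⟩ => ⟨s, h1, funext h2⟩⟩

theorem eq_zero {κ : J → ℕ} (hκ : ∀ j, κ j ≤ N) {s : D.t.Vx → k[X]} (hs : D.t.IsSec κ s)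
    (h : ∀ q, Tr.val κ D.t s (D.sp q) = 0) : s = 0 :=
  D.nrm κ hκ s hs (by rintro _ ⟨q, rfl⟩; exact h q)

theorem finrank_w (κ : J → ℕ) : Module.finrank k (D.w.V κ) = Module.finrank E (z.V κ) :=
  (finrank_sclS (fun q => chr_ne' (D.c_ne q) κ) _).trans (finrank_mapS _ _)

include D in
theorem finrank_V {κ : J → ℕ} (hκ : ∀ j, κ j ≤ N) :
    Module.finrank E (z.V κ) = dot κ d + 1 := by
  have h1 := finrank_sec κ D.ok
  rw [D.deg] at h1
  rw [← D.finrank_w, D.V_eq κ hκ, ← h1, ← LinearMap.range_domRestrict]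
  refine LinearMap.finrank_range_of_inj ((injective_iff_map_eq_zero _).2 fun s hs => ?_)
  exact Subtype.ext (D.eq_zero hκ s.2 fun q => congrFun hs q)

include D in
theorem nz : z.NZ := fun q j => by
  obtain ⟨i, hi⟩ := D.ok.ev_ne (D.sp q) j
  refine ⟨i, fun h => hi ?_⟩
  rw [D.ev_sp]; simp [h]

theorem vvals_inj (hk : ∀ b j, kk' b j ≤ N) {s : D.t.Vx → B → k[X]} (hs : s ∈ TS kk' D.t)
    (h : vvals kk' D.t D.sp s = 0) : s = 0 := by
  funext v b
  have := D.eq_zero (hk b) (hs b) fun q => by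
    rw [← vv_eq_val kk' D.t _ s b]; exact congrFun h (b, q)
  exact congrFun this v

theorem finrank_map_vvals (hk : ∀ b j, kk' b j ≤ N) {U : Submodule k (D.t.Vx → B → k[X])}
    (hU : U ≤ TS kk' D.t) :
    Module.finrank k (U.map (vvals kk' D.t D.sp)) = Module.finrank k U := by
  rw [← LinearMap.range_domRestrict]
  exact LinearMap.finrank_range_of_inj ((injective_iff_map_eq_zero _).2 fun s hs =>
    Subtype.ext (D.vvals_inj hk (hU s.2) hs))

theorem pR_sp (h : HZ kk' kk ρ) (q : I) :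
    pR ρ (D.t.ev (D.sp q)) = sclS (fun b => ∏ j, D.c q j ^ kk' b j) (mapS D.α (pR ρ (z.y q))) := by
  rw [D.ev_sp, h.pR_scl (D.c_ne q), pR_map]

theorem finrank_pR (h : HZ kk' kk ρ) (q : I) :
    Module.finrank k (pR ρ (D.t.ev (D.sp q))) = Module.finrank E (pR ρ (z.y q)) := by
  rw [D.pR_sp h, finrank_sclS fun b => chr_ne' (D.c_ne q) _, finrank_mapS]

theorem Rb_w (h : HZ kk' kk ρ) : Rb kk' ρ D.w =
    sclS (fun x => ∏ j, D.c x.2 j ^ kk' x.1 j) (mapS D.α (Rb kk' ρ z)) := by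
  rw [h.Rb_gau D.c_ne, Rb_map]

theorem finrank_Rb_w (h : HZ kk' kk ρ) :
    Module.finrank k (Rb kk' ρ D.w) = Module.finrank E (Rb kk' ρ z) := by
  rw [D.Rb_w h, finrank_sclS fun x : B × I => chr_ne' (D.c_ne x.2) (kk' x.1), finrank_mapS]

/-- the space `Rb` is the space of values of the sections on the tree -/
theorem Rb_eq (h : HZ kk' kk ρ) {n : ℕ} (hn : ∀ x, Module.finrank k (pR ρ (D.t.ev x)) = n)
    (hk : ∀ b j, (n + 1) * kk' b j ≤ N) :
    Rb kk' ρ D.w = (ES kk' D.t (pR ρ)).map (vvals kk' D.t D.sp) := by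
  have hk' : ∀ b j, kk' b j ≤ N := fun b j => le_trans (Nat.le_mul_of_pos_left _ n.succ_pos) (hk b j)
  ext σ
  rw [mem_Rb]
  constructor
  · rintro ⟨h1, h2⟩
    choose s hs hv using fun b => (D.mem_V (hk' b)).1 (h1 b)
    have h3 : ∀ q, vv kk' D.t (D.sp q) (fun v b => s b v) = fun b => σ (b, q) := fun q =>
      funext fun b => by rw [vv_eq_val]; exact hv b q
    refine ⟨fun v b => s b v, ?_, funext fun x => congrFun (h3 x.2) x.1⟩
    refine (hm_sb h D.ok).sat_range D.ok (fun x b a h0 => h.le_of_ne h0) hn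
      (Y := Set.range D.sp) (fun b κ hκ => D.nrm κ fun j => ?_) hs ?_
    · have h4 := hκ j
      rw [Finset.sum_apply] at h4
      have h5 : (n + 1) * ∑ i, kk' (b i) j ≤ (n + 1) * N := by
        rw [Finset.mul_sum]
        refine (Finset.sum_le_sum fun i _ => hk (b i) j).trans ?_
        simp
      exact h4.trans (Nat.le_of_mul_le_mul_left h5 n.succ_pos)
    · rintro _ ⟨q, rfl⟩
      rw [h3, ← D.y_eq]; exact h2 q
  · rintro ⟨s, hs, rfl⟩
    obtain ⟨h1, h2⟩ := mem_ES.1 hs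
    refine ⟨fun b => (D.mem_V (hk' b)).2 ⟨_, h1 b, fun q => (vv_eq_val _ _ _ _ _).symm⟩,
      fun q => ?_⟩
    rw [D.y_eq]; exact h2 _

theorem finrank_Rb (h : HZ kk' kk ρ) {n : ℕ} (hn : ∀ x, Module.finrank k (pR ρ (D.t.ev x)) = n)
    (hk : ∀ b j, (n + 1) * kk' b j ≤ N) :
    Module.finrank E (Rb kk' ρ z) = Module.finrank k (ES kk' D.t (pR ρ)) := by
  rw [← D.finrank_Rb_w h, D.Rb_eq h hn hk]
  exact D.finrank_map_vvals
    (fun b j => le_trans (Nat.le_mul_of_pos_left _ n.succ_pos) (hk b j)) inf_le_left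

/-- evaluation at a point is onto -/
theorem map_Rb (h : HZ kk' kk ρ) {n : ℕ} (hn : ∀ x, Module.finrank k (pR ρ (D.t.ev x)) = n)
    (hk : ∀ b j, (n + 1) * kk' b j ≤ N) (q : I) :
    (Rb kk' ρ z).map (LinearMap.funLeft E E fun b => (b, q)) = pR ρ (z.y q) := by
  apply mapS_injective D.α
  rw [mapS_map]
  apply le_antisymm
  · rintro _ ⟨σ, hσ, rfl⟩
    rw [← Rb_map] at hσ
    rw [← pR_map]; exact (mem_Rb.1 hσ).2 q
  · intro u hu
    have h1 : (fun b => (∏ j, D.c q j ^ kk' b j) * u b) ∈ pR ρ (D.t.ev (D.sp q)) := by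
      rw [D.pR_sp h]; exact ⟨u, hu, rfl⟩
    obtain ⟨s, hs, h2⟩ := ES_ev D.ok (hm_sb h D.ok).vg_range _ _ h1
    have h3 : vvals kk' D.t D.sp s ∈ Rb kk' ρ D.w := by
      rw [D.Rb_eq h hn hk]; exact ⟨s, hs, rfl⟩
    rw [D.Rb_w h] at h3
    obtain ⟨σ, hσ, h4⟩ := h3
    refine ⟨σ, hσ, funext fun b => mul_left_cancel₀ (chr_ne' (D.c_ne q) (kk' b)) ?_⟩
    exact (congrFun h4 (b, q)).trans (congrFun h2 b)

/-- a multihomogeneous polynomial vanishing at the points vanishes on the tree -/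
theorem pv_eq_zero {F : MvPolynomial (Vr io) ℂ} {κ : J → ℕ} (hF : MH F κ) (hκ : ∀ j, κ j ≤ N)
    (h : ∀ q, pv (z.y q) F = 0) (x : D.t.Pt) : pv (D.t.ev x) F = 0 := by
  obtain ⟨h1, h2⟩ := isSec_sb hF D.ok
  rw [← h2, D.eq_zero hκ h1 fun q => ?_, Tr.val_zero]
  rw [h2, D.ev_sp, (MZ.of_MH hF).pv_scl (D.c_ne q), pv_map, h, map_zero, mul_zero]

include D in
/-- the values of a multihomogeneous polynomial lie in `V` -/
theorem pv_mem_V {F : MvPolynomial (Vr io) ℂ} {κ : J → ℕ} (hF : MH F κ) (hκ : ∀ j, κ j ≤ N) :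
    (fun q => pv (z.y q) F) ∈ z.V κ := by
  obtain ⟨h1, h2⟩ := isSec_sb hF D.ok
  have h3 := (D.mem_V hκ).2 ⟨_, h1, fun q => h2 (D.sp q)⟩
  rw [← map_mem_mapS_iff D.α, ← mul_mem_sclS_iff fun q => chr_ne' (D.c_ne q) κ]
  have h4 : (fun q => (∏ j, D.c q j ^ κ j) * D.α (pv (z.y q) F)) =
      fun q => pv (D.t.ev (D.sp q)) F := funext fun q => by
    rw [D.ev_sp, (MZ.of_MH hF).pv_scl (D.c_ne q), pv_map]
    simp only [zpow_natCast]
  rw [h4]; exact h3

/-- gauge transformations -/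
def gau {c : I → J → E} (hc : ∀ q j, c q j ≠ 0) : TD d N (z.gau c) k where
  α := D.α
  t := D.t
  sp := D.sp
  c q j := D.c q j / D.α (c q j)
  ok := D.ok
  deg := D.deg
  c_ne q j := div_ne_zero (D.c_ne q j) ((_root_.map_ne_zero _).2 (hc q j))
  y_eq q := by
    rw [D.ev_sp]
    funext j i
    change D.c q j / D.α (c q j) * D.α (c q j * z.y q j i) = _
    rw [map_mul, ← mul_assoc, div_mul_cancel₀ _ ((_root_.map_ne_zero _).2 (hc q j))]
  V_eq κ hκ := by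
    rw [← D.V_eq κ hκ]
    change sclS _ (mapS D.α (sclS _ (z.V κ))) = sclS _ (mapS D.α (z.V κ))
    rw [mapS_sclS, sclS_sclS]
    congr 1
    funext q
    rw [map_prod, ← Finset.prod_mul_distrib]
    refine Finset.prod_congr rfl fun j _ => ?_
    rw [map_pow, ← mul_pow, div_mul_cancel₀ _ ((_root_.map_ne_zero _).2 (hc q j))]
  nrm := D.nrm

/-- smaller bound -/
def mono {N' : ℕ} (h : N' ≤ N) : TD d N' z k :=
  { D with
    V_eq := fun κ hκ => D.V_eq κ fun j => (hκ j).trans h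
    nrm := fun κ hκ => D.nrm κ fun j => (hκ j).trans h }

/-- descent along a field extension -/
def ofMap {β : E' →ₐ[ℂ] E} {z' : Cfg io I E'} (D : TD d N (z'.map β) k) : TD d N z' k where
  α := D.α.comp β
  t := D.t
  sp := D.sp
  c := D.c
  ok := D.ok
  deg := D.deg
  c_ne := D.c_ne
  y_eq := D.y_eq
  V_eq κ hκ := by
    rw [← D.V_eq κ hκ]
    change sclS _ (mapS _ (z'.V κ)) = sclS _ (mapS D.α (mapS β (z'.V κ)))
    rw [mapS_mapS]
  nrm := D.nrm

end TD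

namespace TL

variable {d : J → ℕ} {N : ℕ} {z : Cfg io I E}

theorem gau (h : TL d N z) {c : I → J → E} (hc : ∀ q j, c q j ≠ 0) : TL d N (z.gau c) := by
  obtain ⟨k, _, _, _, ⟨D⟩⟩ := h
  exact ⟨k, _, _, ‹_›, ⟨D.gau hc⟩⟩

theorem mono (h : TL d N z) {N' : ℕ} (hN : N' ≤ N) : TL d N' z := by
  obtain ⟨k, _, _, _, ⟨D⟩⟩ := h
  exact ⟨k, _, _, ‹_›, ⟨D.mono hN⟩⟩

theorem ofMap {β : E' →ₐ[ℂ] E} {z' : Cfg io I E'} (h : TL d N (z'.map β)) : TL d N z' := by
  obtain ⟨k, _, _, _, ⟨D⟩⟩ := h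
  exact ⟨k, _, _, ‹_›, ⟨D.ofMap⟩⟩

theorem nz (h : TL d N z) : z.NZ := by
  obtain ⟨k, _, _, _, ⟨D⟩⟩ := h
  exact D.nz

theorem finrank_V (h : TL d N z) {κ : J → ℕ} (hκ : ∀ j, κ j ≤ N) :
    Module.finrank E (z.V κ) = dot κ d + 1 := by
  obtain ⟨k, _, _, _, ⟨D⟩⟩ := h
  exact D.finrank_V hκ

theorem pv_mem_V (h : TL d N z) {F : MvPolynomial (Vr io) ℂ} {κ : J → ℕ} (hF : MH F κ)
    (hκ : ∀ j, κ j ≤ N) : (fun q => pv (z.y q) F) ∈ z.V κ := by
  obtain ⟨k, _, _, _, ⟨D⟩⟩ := h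
  exact D.pv_mem_V hF hκ

end TL

end Crest.Agent.X262.Tree87
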