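import Crest.Agent.X262.Tree87.Ses

/-!
Row 262, Tree87, part Prj: constants, sections proportional to a tuple, projection of trees,
subfamilies of points, homogeneous coefficients.
-/

set_option autoImplicit false
set_option linter.unusedSectionVars false

noncomputable section

namespace Crest.Agent.X262.Tree87

open Polynomial Crest.Agent.X262.Bub96 Crest.Agent.X262.Bub96.Tr Crest.Agent.X262.Vb
open Crest.Agent.X277 Crest.Agent.X277.BD

/-! ### projection of trees -/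

section prj

variable {k : Type} [Field k] {J J' : Type} {io : J → Type} (g : J' → J)

/-- the tree with the factors `g j` -/
def prT : Tr k J io → Tr k J' fun j => io (g j)
  | leaf d f => leaf (fun j => d (g j)) fun j => f (g j)
  | glue T p S => glue (prT T) p (prT S)

/-- the vertices are the same -/
def prE : (t : Tr k J io) → t.Vx ≃ (prT g t).Vx
  | leaf _ _ => Equiv.refl Unit
  | glue T _ S => Equiv.sumCongr (prE T) (prE S)

theorem prE_root : (t : Tr k J io) → prE g t t.root = (prT g t).root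
  | leaf _ _ => rfl
  | glue T _ _ => congrArg Sum.inl (prE_root T)

theorem vd_prT : (t : Tr k J io) → ∀ v, (prT g t).vd (prE g t v) = fun j => t.vd v (g j)
  | leaf _ _, _ => rfl
  | glue T _ _, Sum.inl v => vd_prT T v
  | glue _ _ S, Sum.inr v => vd_prT S v

theorem vg_prT : (t : Tr k J io) → ∀ v, (prT g t).vg (prE g t v) = fun j => t.vg v (g j)
  | leaf _ _, _ => rfl
  | glue T _ _, Sum.inl v => vg_prT T v
  | glue _ _ S, Sum.inr v => vg_prT S v

theorem hole_prT : (t : Tr k J io) → ∀ v, (prT g t).hole (prE g t v) = t.hole v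
  | leaf _ _, _ => rfl
  | glue T p _, Sum.inl v => by
    change {x | x ∈ (prT g T).hole (prE g T v) ∨ (prE g T v = (prT g T).root ∧ x = p)} =
      {x | x ∈ T.hole v ∨ (v = T.root ∧ x = p)}
    rw [hole_prT T v, ← prE_root, (prE g T).apply_eq_iff_eq]
  | glue _ _ S, Sum.inr v => hole_prT S v

theorem deg_prT : (t : Tr k J io) → (prT g t).deg = fun j => t.deg (g j)
  | leaf _ _ => rfl
  | glue T _ S => by
    change (fun j => (prT g T).deg j + (prT g S).deg j) = _
    rw [deg_prT T, deg_prT S]; rfl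

theorem ev_prT (t : Tr k J io) (x : t.Pt) :
    (prT g t).ev (prE g t x.1, x.2) = fun j => t.ev x (g j) := by
  funext j i
  simp only [Tr.ev, vd_prT, vg_prT]

theorem ok_prT : {t : Tr k J io} → t.OK → (prT g t).OK
  | leaf _ _, h => ⟨fun j => h.1 (g j), fun j => h.2 (g j)⟩
  | glue T p S, h => ⟨ok_prT h.1, ok_prT h.2.1, by rw [← prE_root, hole_prT]; exact h.2.2.1,
      fun j i => by
        rw [← prE_root, ← prE_root, ev_prT g S (S.root, none), ev_prT g T (T.root, some p)]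
        exact h.2.2.2 _ i⟩

theorem exists_pt (t : Tr k J io) (x : (prT g t).Pt) : ∃ y : t.Pt, x = (prE g t y.1, y.2) :=
  ⟨((prE g t).symm x.1, x.2), by simp⟩

variable [Fintype J] [Fintype J'] {g} {κ : J' → ℕ} {κ' : J → ℕ}

theorem val_prT (h : ∀ d, dot κ' d = dot κ fun j => d (g j)) (t : Tr k J io)
    (s : (prT g t).Vx → k[X]) (x : t.Pt) :
    val κ (prT g t) s (prE g t x.1, x.2) = val κ' t (fun v => s (prE g t v)) x := by
  simp only [Tr.val, vd_prT, h]

theorem isSec_prT (h : ∀ d, dot κ' d = dot κ fun j => d (g j)) :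
    (t : Tr k J io) → ∀ s : (prT g t).Vx → k[X],
      (prT g t).IsSec κ s ↔ t.IsSec κ' fun v => s (prE g t v)
  | leaf d _, s => by
    change (s ()).natDegree ≤ dot κ _ ↔ (s ()).natDegree ≤ dot κ' d
    rw [h]
  | glue T p S, s => by
    refine and_congr (isSec_prT h T _) (and_congr (isSec_prT h S _) ?_)
    rw [← prE_root, ← prE_root, val_prT h S _ (S.root, none), val_prT h T _ (T.root, some p)]
    rfl

end prj

variable {J : Type} [Fintype J] [DecidableEq J] {io : J → Type} [∀ j, Fintype (io j)]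
  [∀ j, DecidableEq (io j)] {A B I : Type} [Fintype A] [Fintype B]
  [Fintype I] {E E' : Type} [Field E] [Algebra ℂ E] [Field E'] [Algebra ℂ E']
  {d : J → ℕ} {N : ℕ} {z : Cfg io I E}

theorem exists_bnd (f : A → J → ℕ) (c : ℕ) : ∃ N₀, ∀ N, N₀ ≤ N → ∀ a j, c * f a j ≤ N :=
  ⟨c * ∑ a, ∑ j, f a j, fun _ hN a j => le_trans (Nat.mul_le_mul_left _
    ((Finset.single_le_sum (f := f a) (fun _ _ => Nat.zero_le _) (Finset.mem_univ j)).trans
      (Finset.single_le_sum (f := fun a => ∑ j, f a j) (fun _ _ => Nat.zero_le _)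
        (Finset.mem_univ a)))) hN⟩

/-- a homogeneous member of an ideal with homogeneous generators -/
theorem exists_mz {F : B → MvPolynomial (Vr io) ℂ} {kk : B → J → ℤ} (hF : ∀ b, MZ (F b) (kk b))
    {q : MvPolynomial (Vr io) ℂ} {κ : J → ℤ} (hq : MZ q κ) (h : q ∈ Ideal.span (Set.range F)) :
    ∃ r : B → MvPolynomial (Vr io) ℂ, (∀ b, MZ (r b) (κ - kk b)) ∧ q = ∑ b, r b * F b := by
  classical
  obtain ⟨r, hr⟩ := Ideal.mem_span_range_iff_exists_fun.1 h
  let w := fun v : Vr io => (Pi.single v.1 1 : J → ℤ)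
  let _ := MvPolynomial.weightedGradedAlgebra ℂ w
  refine ⟨fun b => MvPolynomial.weightedHomogeneousComponent w (κ - kk b) (r b),
    fun b => MvPolynomial.weightedHomogeneousComponent_isWeightedHomogeneous _ _, ?_⟩
  rw [← hq.weightedHomogeneousComponent_same, ← hr, map_sum]
  refine Finset.sum_congr rfl fun b _ => ?_
  have := DirectSum.coe_decompose_mul_add_of_right_mem
    (MvPolynomial.weightedHomogeneousSubmodule ℂ w) (a := r b) (i := κ - kk b) (hF b)
  rw [sub_add_cancel] at this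
  exact (MvPolynomial.weightedDecomposition.decompose'_apply ℂ w _ _).symm.trans
    (this.trans (congrArg (· * F b) (MvPolynomial.weightedDecomposition.decompose'_apply ℂ w _ _)))

/-- the empty matrix -/
def emp (io : J → Type) (B : Type) : B → Empty → MvPolynomial (Vr io) ℂ := fun _ _ => 0

theorem hz_emp (kk : B → J → ℕ) : HZ kk (fun _ : Empty => 0) (emp io B) := fun _ _ => MZ.zero _

theorem pR_emp (y : Pnt io E) : pR (emp io B) y = ⊥ :=
  eq_bot_iff.2 (by rintro _ ⟨u, rfl⟩; exact funext fun b => by simp [Matrix.mulVec, dotProduct])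

theorem Rb_emp (kk : B → J → ℕ) (z : Cfg io I E) : Rb kk (emp io B) z = ⊥ :=
  eq_bot_iff.2 fun σ hσ => funext fun x => by
    have := (mem_Rb.1 hσ).2 x.2
    rw [pR_emp] at this
    exact congrFun this x.1

/-- a tuple as a column -/
def col (η : B → MvPolynomial (Vr io) ℂ) : B → Unit → MvPolynomial (Vr io) ℂ := fun b _ => η b

theorem mem_pR_col {η : B → MvPolynomial (Vr io) ℂ} {y : Pnt io E} {u : B → E} :
    u ∈ pR (col η) y ↔ ∃ μ : E, ∀ b, u b = μ * pv y (η b) :=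
  ⟨fun ⟨w, h⟩ => ⟨w (), fun b => by
      rw [← h]; simp [Matrix.mulVec, dotProduct, pM, col, mul_comm]⟩,
    fun ⟨μ, h⟩ => ⟨fun _ => μ, funext fun b => by
      rw [h]; simp [Matrix.mulVec, dotProduct, pM, col, mul_comm]⟩⟩

theorem pK_col {η : B → MvPolynomial (Vr io) ℂ} {y : Pnt io E} (h : ∃ b, pv y (η b) ≠ 0) :
    pK (col η) y = ⊥ :=
  eq_bot_iff.2 fun u hu => funext fun _ => by
    obtain ⟨b, hb⟩ := h
    simpa [col, hb] using mem_pK.1 hu b

theorem finrank_pR_col {η : B → MvPolynomial (Vr io) ℂ} {y : Pnt io E} (h : ∃ b, pv y (η b) ≠ 0) :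
    Module.finrank E (pR (col η) y) = 1 := by
  have := finrank_pR_add_pK (col η) y
  rwa [pK_col h, finrank_bot, add_zero] at this

omit [Algebra ℂ E] in
/-- two vectors proportional to a third one -/
theorem exists_mul_of_wedge {u y : B → E} (hy : ∃ b, y b ≠ 0) (h : ∀ a b, u a * y b = u b * y a) :
    ∃ μ : E, ∀ b, u b = μ * y b := by
  obtain ⟨a, ha⟩ := hy
  exact ⟨u a / y a, fun b => by rw [div_mul_eq_mul_div, h, mul_div_cancel_right₀ _ ha]⟩

theorem hz_col {η : B → MvPolynomial (Vr io) ℂ} {κ κ₀ κ₁ : J → ℕ} (h : ∀ b, MH (η b) κ)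
    (e : κ₀ + κ = κ₁) : HZ (fun _ => κ₁) (fun _ => κ₀) (col η) :=
  fun b _ => (MZ.of_MH (h b)).congr fun j => by rw [← e]; simp

theorem mh_X (v : Vr io) : MH (MvPolynomial.X v) (Pi.single v.1 1) :=
  MvPolynomial.isWeightedHomogeneous_X _ _ v

theorem dot_single (j : J) (d : J → ℕ) : dot (Pi.single j 1) d = d j := by
  simp [dot, Pi.single_apply]

namespace TD

variable {k : Type} [Field k] [Algebra ℂ k] (D : TD d N z k)

include D in
/-- sections of degree zero are constants -/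
theorem mem_V_zero {u : I → E} : u ∈ z.V 0 ↔ ∃ μ, ∀ q, u q = μ := by
  have h1 : (fun _ => 1) ∈ z.V 0 := by
    simpa [pv] using D.pv_mem_V (F := 1) (MvPolynomial.isWeightedHomogeneous_one _ _)
      fun _ => Nat.zero_le _
  refine ⟨fun hu => ?_, fun ⟨μ, h⟩ => ?_⟩
  · rcases isEmpty_or_nonempty I with h | ⟨⟨q⟩⟩
    · exact ⟨0, h.elim⟩
    have h2 := D.finrank_V (κ := 0) fun _ => Nat.zero_le _
    obtain ⟨μ, h3⟩ := (finrank_eq_one_iff_of_nonzero' (⟨_, h1⟩ : z.V 0) fun h =>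
      one_ne_zero (congrFun (congrArg Subtype.val h) q)).1 (by simpa [dot] using h2) ⟨u, hu⟩
    exact ⟨μ, fun q => by simpa using (congrFun (congrArg Subtype.val h3) q).symm⟩
  · rw [show u = μ • fun _ => 1 from funext fun q => by simp [h]]
    exact Submodule.smul_mem _ _ h1

/-- projection to the factors `g j` -/
def prj {J' : Type} [Fintype J'] {g : J' → J} {z' : Cfg (fun j => io (g j)) I E} {N' : ℕ}
    (ex : (J' → ℕ) → J → ℕ) (hy : ∀ q, z'.y q = fun j => z.y q (g j))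
    (hV : ∀ κ, z'.V κ = z.V (ex κ)) (hN : ∀ κ, (∀ j, κ j ≤ N') → ∀ j, ex κ j ≤ N)
    (hd : ∀ κ d, dot (ex κ) d = dot κ fun j => d (g j))
    (hp : ∀ κ (c : J → k), ∏ j, c j ^ ex κ j = ∏ j, c (g j) ^ κ j) :
    TD (fun j => d (g j)) N' z' k where
  α := D.α
  t := prT g D.t
  sp q := (prE g D.t (D.sp q).1, (D.sp q).2)
  c q j := D.c q (g j)
  ok := ok_prT g D.ok
  deg := by rw [deg_prT, D.deg]
  c_ne q j := D.c_ne q (g j)
  y_eq q := by
    rw [ev_prT, D.ev_sp]
    funext j i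
    change _ * D.α (z'.y q j i) = _
    rw [hy]
  V_eq κ hκ := by
    have h1 := D.V_eq _ (hN κ hκ)
    change sclS _ (mapS _ _) = _ at h1 ⊢
    simp only [hp] at h1
    rw [hV, h1]
    ext u
    constructor
    · rintro ⟨s, hs, rfl⟩
      have h2 : (fun v => s ((prE g D.t).symm (prE g D.t v))) = s := by simp
      refine ⟨fun v => s ((prE g D.t).symm v), (isSec_prT (hd κ) _ _).2 (h2.symm ▸ hs),
        _root_.funext fun q => ?_⟩
      have h3 := val_prT (hd κ) D.t (fun v => s ((prE g D.t).symm v)) (D.sp q)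
      rw [h2] at h3
      exact h3
    · rintro ⟨s, hs, rfl⟩
      exact ⟨_, (isSec_prT (hd κ) _ _).1 hs, funext fun q => (val_prT (hd κ) _ _ (D.sp q)).symm⟩
  nrm κ hκ s hs h0 := by
    have h1 := D.eq_zero (hN κ hκ) ((isSec_prT (hd κ) _ _).1 hs) fun q =>
      (val_prT (hd κ) _ _ (D.sp q)).symm.trans (h0 _ ⟨q, rfl⟩)
    funext v
    simpa using congrFun h1 ((prE g D.t).symm v)

/-- a subfamily of points on which the restriction is injective -/
def res {I₀ : Type} [Fintype I₀] (g : I₀ → I)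
    (h : ∀ κ : J → ℕ, (∀ j, κ j ≤ N) → ∀ w ∈ z.V κ, (∀ q, w (g q) = 0) → w = 0) :
    TD d N (z.res g) k where
  α := D.α
  t := D.t
  sp q := D.sp (g q)
  c q := D.c (g q)
  ok := D.ok
  deg := D.deg
  c_ne q := D.c_ne (g q)
  y_eq q := D.y_eq (g q)
  V_eq κ hκ := by
    have h1 := D.V_eq κ hκ
    change sclS _ (mapS _ _) = _ at h1
    change sclS _ (mapS _ (Submodule.map _ _)) = _
    rw [mapS_map]
    ext u
    constructor
    · rintro ⟨_, ⟨w, hw, rfl⟩, rfl⟩
      obtain ⟨s, h2, h3⟩ := h1.le ⟨w, hw, rfl⟩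
      exact ⟨s, h2, funext fun q => congrFun h3 (g q)⟩
    · rintro ⟨s, hs, rfl⟩
      obtain ⟨w, h2, h3⟩ := h1.ge ⟨s, hs, rfl⟩
      exact ⟨_, ⟨w, h2, rfl⟩, funext fun q => congrFun h3 (g q)⟩
  nrm κ hκ s hs h0 := by
    obtain ⟨w, h2, h3⟩ := (D.V_eq κ hκ).ge ⟨s, hs, rfl⟩
    have h4 : ∀ l, IsRt D.α l → (fun q => l (w q)) = 0 := fun l hl =>
      h κ hκ _ ((mem_mapS_iff D.α).1 h2 l hl) fun q => by
        have h5 : (∏ j, D.c (g q) j ^ κ j) * w (g q) = 0 :=
          (congrFun h3 (g q)).trans (h0 _ ⟨q, rfl⟩)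
        rw [(mul_eq_zero.1 h5).resolve_left (chr_ne' (D.c_ne _) κ), map_zero]
    have h5 : w ∈ mapS D.α (⊥ : Submodule E (I → E)) := (mem_mapS_iff D.α).2 h4
    have h6 : w = 0 := by
      have h7 := finrank_mapS D.α (⊥ : Submodule E (I → E))
      rwa [Submodule.finrank_eq_zero.1 (h7.trans (finrank_bot _ _))] at h5
    refine D.eq_zero hκ hs fun q => (congrFun h3 q).symm.trans ?_
    rw [h6, map_zero]; rfl

variable [IsAlgClosed k]

/-- sections proportional to a tuple without common zero are multiples -/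
theorem Rb_col {η : B → MvPolynomial (Vr io) ℂ} {κ κ₀ κ₁ : J → ℕ} (h : ∀ b, MH (η b) κ)
    (e : κ₀ + κ = κ₁) (h0 : ∀ x, ∃ b, pv (D.t.ev x) (η b) ≠ 0) (hN : ∀ j, 2 * κ₁ j ≤ N) :
    (∀ σ, σ ∈ Rb (fun _ => κ₁) (col η) z ↔
      ∃ μ ∈ z.V κ₀, ∀ x, σ x = μ x.2 * pv (z.y x.2) (η x.1)) ∧
    Module.finrank E (Rb (fun _ => κ₁) (col η) z) = dot κ₀ d + 1 := by
  obtain ⟨h1, -, h2⟩ := D.lift (hz_emp fun _ : Unit => κ₀) (hz_col h e) (n' := 0)
    (fun x => by rw [pR_emp, finrank_bot]) (fun x => by rw [pR_emp, pK_col (h0 x)])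
    (fun _ j => le_trans (by
      rw [← e, Fintype.card_unit]; exact Nat.mul_le_mul_left _ (Nat.le_add_right _ _)) (hN j))
    fun _ j => by rw [Fintype.card_unit]; exact hN j
  rw [Rb_emp, finrank_bot, add_zero, Finset.univ_unique, Finset.sum_singleton] at h2
  refine ⟨fun σ => ?_, h2⟩
  rw [← h1]
  constructor
  · rintro ⟨μ, hμ, rfl⟩
    exact ⟨_, mem_Am.1 hμ (), fun x => by simp [mpL_apply, col, mul_comm]⟩
  · rintro ⟨μ, hμ, h3⟩
    exact ⟨fun x => μ x.2, mem_Am.2 fun _ => hμ, funext fun x => by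
      simp [mpL_apply, col, mul_comm, h3]⟩

/-- (PROP) sections of `O(κ)` proportional to a tuple of degree `κ` at all points -/
theorem prop {η : B → MvPolynomial (Vr io) ℂ} {κ : J → ℕ} (h : ∀ b, MH (η b) κ)
    (h0 : ∀ x, ∃ b, pv (D.t.ev x) (η b) ≠ 0) (hN : ∀ j, 2 * κ j ≤ N) {s : B → I → E}
    (hs : ∀ b, s b ∈ z.V κ) (hw : ∀ q a b, s a q * pv (z.y q) (η b) = s b q * pv (z.y q) (η a)) :
    ∃ μ : E, ∀ b q, s b q = μ * pv (z.y q) (η b) := by
  obtain ⟨μ, h1, h2⟩ := ((D.Rb_col h (zero_add κ) h0 hN).1 fun x => s x.1 x.2).1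
    (mem_Rb.2 ⟨hs, fun q => mem_pR_col.2 (exists_mul_of_wedge (by
      obtain ⟨b, hb⟩ := h0 (D.sp q)
      refine ⟨b, fun h3 => hb ?_⟩
      rw [D.ev_sp, (MZ.of_MH (h b)).pv_scl (D.c_ne q), pv_map, h3, map_zero, mul_zero]) (hw q))⟩)
  obtain ⟨ν, h3⟩ := D.mem_V_zero.1 h1
  exact ⟨ν, fun b q => by rw [← h3 q]; exact h2 (b, q)⟩

end TD

theorem TL.res (h : TL d N z) {I₀ : Type} [Fintype I₀] (g : I₀ → I)
    (hg : ∀ κ : J → ℕ, (∀ j, κ j ≤ N) → ∀ w ∈ z.V κ, (∀ q, w (g q) = 0) → w = 0) :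
    TL d N (z.res g) := by
  obtain ⟨k, _, _, _, ⟨D⟩⟩ := h
  exact ⟨k, _, _, ‹_›, ⟨D.res g hg⟩⟩

theorem TL.mem_V_zero (h : TL d N z) {u : I → E} : u ∈ z.V 0 ↔ ∃ μ, ∀ q, u q = μ := by
  obtain ⟨k, _, _, _, ⟨D⟩⟩ := h
  exact D.mem_V_zero

/-- on a vertex, a nonzero tuple of forms proportional to a tuple without common zero has the
larger degree -/
theorem le_of_prop {k : Type} [Field k] [IsAlgClosed k] {n m : ℤ} {g f : B → k[X]}
    (hg : ∀ b, DL n (g b)) (hf : ∀ b, DL m (f b)) (h0 : ∀ p, ∃ b, ev n p (g b) ≠ 0)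
    (hw : ∀ p a b, ev m p (f a) * ev n p (g b) = ev m p (f b) * ev n p (g a)) (hne : f ≠ 0) :
    n ≤ m := by
  have h1 : DM (fun _ : B => m) (fun _ : Unit => m - n) (Matrix.of fun b _ => g b) :=
    fun b _ => by simpa using hg b
  obtain ⟨σ, h2, h3⟩ := lift h1 (τ := f) (fun p u hu => ⟨0, zero_mem _, by
    obtain ⟨b, hb⟩ := h0 p
    have h4 := congrFun (mem_Kr.1 hu) b
    funext x
    simp only [Matrix.mulVec, dotProduct, evM, Finset.univ_unique, Finset.sum_singleton,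
      sub_sub_cancel, Matrix.of_apply, Pi.zero_apply, mul_eq_zero, hb, false_or] at h4
    simpa using h4.symm⟩) (mem_Sec.2 ⟨hf, fun p => by
      obtain ⟨μ, h4⟩ := exists_mul_of_wedge (h0 p) (hw p)
      exact mem_Rg.2 ⟨fun _ => μ, funext fun b => by
        simp [Matrix.mulVec, dotProduct, evM, h4, mul_comm]⟩⟩)
  by_contra h4
  apply hne
  rw [← h3, show σ = 0 from funext fun x => (h2 x).eq_zero (by omega), Matrix.mulVec_zero]

end Crest.Agent.X262.Tree87
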