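import Crest.Agent.X262.Tree87.T1
import Crest.Agent.X262.Vb.Cfg

/-!
Row 262, Tree87, part T2: saturation for the range of a matrix of constant rank; substitution of
the map of a vertex into multihomogeneous polynomials.
-/

set_option autoImplicit false

noncomputable section

namespace Crest.Agent.X262.Tree87

open Polynomial Crest.Agent.X262.Bub96 Crest.Agent.X262.Bub96.Tr

section gen

variable {k : Type*} [Field k] {J : Type*} [Fintype J] {io : J → Type*} {A B : Type*}

theorem isSec_of_same {κ : J → ℕ} : ∀ {t : Tr k J io}, t.OK → ∀ {s : t.Vx → k[X]},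
    (∀ v, (s v).natDegree ≤ dot κ (t.vd v)) →
    (∀ x y, t.Same x y → val κ t s x = val κ t s y) → t.IsSec κ s
  | leaf _ _, _, _, h, _ => h ()
  | glue T p S, ht, _, h, h' =>
    ⟨isSec_of_same ht.1 (fun v => h (Sum.inl v)) fun _ _ hxy => h' _ _ (hxy.inl p S),
      isSec_of_same ht.2.1 (fun v => h (Sum.inr v)) fun _ _ hxy => h' _ _ (hxy.inr T p),
      (h' _ _ (same_node ht)).symm⟩

theorem same_ev {t : Tr k J io} {x y : t.Pt} (h : t.Same x y) : t.ev x = t.ev y :=
  funext fun j => funext fun i => h.1 j i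

theorem same_vv {t : Tr k J io} {x y : t.Pt} (h : t.Same x y) {kk : A → J → ℕ}
    {s : t.Vx → A → k[X]} (hs : s ∈ TS kk t) : vv kk t x s = vv kk t y s :=
  funext fun a => by rw [vv_eq_val, vv_eq_val]; exact h.2 _ _ (hs a)

/-- the vector `τ` and `n` columns of `M` -/
def aug {R : Type*} {n : ℕ} (τ : B → R) (M : Matrix B A R) (a : Fin n → A) :
    Fin (n + 1) → B → R := Fin.cons τ fun j b => M b (a j)

theorem minor_aug_eq_zero [Fintype A] {n : ℕ} {M : Matrix B A k} {τ : B → k}
    (hn : Module.finrank k (LinearMap.range M.mulVecLin) = n)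
    (hτ : τ ∈ LinearMap.range M.mulVecLin) (a : Fin n → A) (b : Fin (n + 1) → B) :
    minor (aug τ M a) b = 0 := by
  classical
  by_contra h
  have h1 := finrank_span_eq_card (linearIndependent_of_minor h)
  have h2 : Submodule.span k (Set.range (aug τ M a)) ≤ LinearMap.range M.mulVecLin := by
    rw [Submodule.span_le]
    rintro _ ⟨i, rfl⟩
    refine Fin.cases hτ (fun j => ⟨Pi.single (a j) 1, ?_⟩) i
    funext b; simp [aug, Matrix.mulVec, dotProduct, Pi.single_apply]
  have h3 := Submodule.finrank_mono h2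
  rw [h1, hn, Fintype.card_fin] at h3
  omega

theorem mem_range_of_minor [Fintype A] [Fintype B] {n : ℕ} {M : Matrix B A k} {τ : B → k}
    (hn : Module.finrank k (LinearMap.range M.mulVecLin) = n)
    (h : ∀ (a : Fin n → A) (b : Fin (n + 1) → B), minor (aug τ M a) b = 0) :
    τ ∈ LinearMap.range M.mulVecLin := by
  classical
  rw [Matrix.range_mulVecLin] at hn ⊢
  obtain ⟨κ, a, ha, hsp, hli⟩ := exists_linearIndependent' k M.col
  have : Finite κ := Finite.of_injective a ha
  have := Fintype.ofFinite κ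
  have h2 : Fintype.card κ = n := by
    rw [linearIndependent_iff_card_eq_finrank_span.1 hli, Set.finrank, hsp, hn]
  let ε : Fin n ≃ κ := (Fintype.equivFinOfCardEq h2).symm
  have h3 : LinearIndependent k fun (j : Fin n) (b : B) => M b ((a ∘ ε) j) :=
    hli.comp ε ε.injective
  by_contra hτ
  have h4 : LinearIndependent k (aug τ M (a ∘ ε)) := by
    refine linearIndependent_finCons.2 ⟨h3, fun h5 => hτ ?_⟩
    exact Submodule.span_mono (by rintro _ ⟨j, rfl⟩; exact ⟨_, rfl⟩) h5
  obtain ⟨b, hb⟩ := exists_minor_ne_zero h4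
  exact hb (h _ b)

/-- (SAT) for the range of a matrix of constant rank `n` -/
theorem HM.sat_range [Fintype A] [Fintype B] {kk' : B → J → ℕ} {kk : A → J → ℕ}
    {M : ((j : J) → io j → k) → Matrix B A k} {t : Tr k J io} {P : t.Vx → Matrix B A k[X]}
    (ht : t.OK) (h : HM kk' kk M t P) (hle : ∀ x b a, M (t.ev x) b a ≠ 0 → kk a ≤ kk' b) {n : ℕ}
    (hn : ∀ x, Module.finrank k (LinearMap.range (M (t.ev x)).mulVecLin) = n) {Y : Set t.Pt}
    (hY : ∀ (b : Fin (n + 1) → B) κ, κ ≤ ∑ i, kk' (b i) → t.Norming κ Y)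
    {τ : t.Vx → B → k[X]} (hτ : τ ∈ TS kk' t)
    (h0 : ∀ x ∈ Y, vv kk' t x τ ∈ LinearMap.range (M (t.ev x)).mulVecLin) :
    τ ∈ ES kk' t fun y => LinearMap.range (M y).mulVecLin := by
  classical
  refine mem_ES.2 ⟨hτ, fun x => mem_range_of_minor (hn x) fun a b => ?_⟩
  by_cases hab : ∑ j, kk (a j) ≤ ∑ i, kk' (b i)
  · set κ := ∑ i, kk' (b i) - ∑ j, kk (a j) with hκ
    have hd : ∀ v, (dot κ (t.vd v) : ℤ) =
        ∑ i, (Fin.cons 0 (fun j => -vdz kk t v (a j)) : Fin (n + 1) → ℤ) i +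
          ∑ i, vdz kk' t v (b i) := by
      intro v
      rw [Fin.sum_univ_succ]
      simp only [Fin.cons_zero, Fin.cons_succ, vdz, dot, zero_add, Finset.sum_neg_distrib]
      push_cast
      rw [Finset.sum_comm (s := Finset.univ) (t := Finset.univ)
          (f := fun j l => (kk (a j) l : ℤ) * t.vd v l),
        Finset.sum_comm (s := Finset.univ) (t := Finset.univ)
          (f := fun i l => (kk' (b i) l : ℤ) * t.vd v l), neg_add_eq_sub,
        ← Finset.sum_sub_distrib]
      refine Finset.sum_congr rfl fun l _ => ?_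
      have h1 := hab l
      simp only [Finset.sum_apply] at h1
      rw [← Finset.sum_mul, ← Finset.sum_mul, ← sub_mul, hκ, Pi.sub_apply, Finset.sum_apply,
        Finset.sum_apply, Nat.cast_sub h1]
      push_cast; rfl
    have hm : ∀ v, DL (dot κ (t.vd v)) (minor (aug (τ v) (P v) a) b) ∧ ∀ p,
        ev (dot κ (t.vd v)) p (minor (aug (τ v) (P v) a) b) =
          minor (aug (vv kk' t (v, p) τ) (M (t.ev (v, p))) a) b := by
      intro v
      have h1 := ev_minor (e := vdz kk' t v) (v := aug (τ v) (P v) a)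
        (d := Fin.cons 0 fun j => -vdz kk t v (a j)) (fun i => Fin.cases
          (fun b => by simpa [aug] using TS.dl hτ v b)
          (fun j b => by
            simp only [aug, Fin.cons_succ, tw_apply, neg_add_eq_sub]
            exact (h v).1 b (a j)) i) b
      rw [← hd v] at h1
      refine ⟨h1.1, fun p => (h1.2 p).trans ?_⟩
      congr 1
      funext i
      refine Fin.cases ?_ (fun j => ?_) i
      · simp only [aug, Fin.cons_zero, tw_zero]; rfl
      · funext b
        simp only [aug, Fin.cons_succ, evv_apply, tw_apply, neg_add_eq_sub]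
        exact congrFun (congrFun ((h v).2 p) b) (a j)
    have hval : ∀ y, val κ t (fun v => minor (aug (τ v) (P v) a) b) y =
        minor (aug (vv kk' t y τ) (M (t.ev y)) a) b := fun y =>
      (ev_eq_hv _ _ _).symm.trans ((hm y.1).2 y.2)
    have hsec : t.IsSec κ fun v => minor (aug (τ v) (P v) a) b :=
      isSec_of_same ht (fun v => DL_nat.1 (hm v).1) fun x y hxy => by
        rw [hval, hval, same_ev hxy, same_vv hxy hτ]
    have h1 := hY b κ (fun l => Nat.sub_le _ _) _ hsec fun y hy => by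
      rw [hval]; exact minor_aug_eq_zero (hn y) (h0 y hy) a b
    rw [← hval, h1, val_zero]
  · unfold minor
    rw [← Matrix.det_transpose, Matrix.det_apply']
    refine Finset.sum_eq_zero fun σ _ => mul_eq_zero_of_right _ ?_
    by_contra h1
    apply hab
    have h2 : ∀ j, kk (a j) ≤ kk' (b (σ j.succ)) := fun j =>
      hle x _ _ (Finset.prod_ne_zero_iff.1 h1 j.succ (Finset.mem_univ _))
    rw [← Equiv.sum_comp σ fun i => kk' (b i), Fin.sum_univ_succ]
    exact (Finset.sum_le_sum fun j _ => h2 j).trans le_add_self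

end gen

/-! ### substitution -/

open Crest.Agent.X262.Vb

variable {J : Type} [Fintype J] [DecidableEq J] {io : J → Type} [∀ j, Fintype (io j)]
  [∀ j, DecidableEq (io j)] {k : Type} [Field k] [Algebra ℂ k]

/-- multihomogeneous of integral multidegree -/
def MZ (q : MvPolynomial (Vr io) ℂ) (κ : J → ℤ) : Prop :=
  q.IsWeightedHomogeneous (fun v => (Pi.single v.1 1 : J → ℤ)) κ

omit [Fintype J] [∀ j, Fintype (io j)] [∀ j, DecidableEq (io j)] in
theorem weight_cast (s : Vr io →₀ ℕ) (j : J) :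
    Finsupp.weight (fun v : Vr io => (Pi.single v.1 1 : J → ℤ)) s j =
      (Finsupp.weight (fun v : Vr io => (Pi.single v.1 1 : J → ℕ)) s j : ℕ) := by
  simp only [Finsupp.weight_apply, Finsupp.sum, Finset.sum_apply, Pi.smul_apply, Pi.single_apply]
  push_cast
  exact Finset.sum_congr rfl fun v _ => by split_ifs <;> simp

omit [Fintype J] [∀ j, Fintype (io j)] [∀ j, DecidableEq (io j)] in
theorem MZ.of_MH {q : MvPolynomial (Vr io) ℂ} {κ : J → ℕ} (h : MH q κ) :
    MZ q fun j => κ j := fun s hs => funext fun j => by rw [weight_cast, h hs]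

omit [Fintype J] [∀ j, Fintype (io j)] [∀ j, DecidableEq (io j)] in
theorem MZ.zero (κ : J → ℤ) : MZ (0 : MvPolynomial (Vr io) ℂ) κ := fun _ h => (h rfl).elim

omit [Fintype J] [∀ j, Fintype (io j)] [∀ j, DecidableEq (io j)] in
theorem MZ.pderiv {q : MvPolynomial (Vr io) ℂ} {κ : J → ℤ} (h : MZ q κ) (v : Vr io) :
    MZ (MvPolynomial.pderiv v q) (κ - Pi.single v.1 1) :=
  MvPolynomial.IsWeightedHomogeneous.pderiv h (sub_add_cancel _ _)

omit [Fintype J] [∀ j, Fintype (io j)] [∀ j, DecidableEq (io j)] in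
theorem MZ.nonneg {q : MvPolynomial (Vr io) ℂ} {κ : J → ℤ} (h : MZ q κ) (h0 : q ≠ 0) (j : J) :
    0 ≤ κ j := by
  obtain ⟨s, hs⟩ := MvPolynomial.ne_zero_iff.1 h0
  rw [← h hs, weight_cast]; exact Int.natCast_nonneg _

omit [∀ j, DecidableEq (io j)] in
theorem sum_weight {M : Type*} [AddCommGroup M] (s : Vr io →₀ ℕ) (f : J → M) :
    ∑ j, Finsupp.weight (fun v : Vr io => (Pi.single v.1 1 : J → ℤ)) s j • f j =
      ∑ v, s v • f v.1 := by
  simp only [Finsupp.weight_apply]
  rw [Finsupp.sum_fintype _ _ (by simp)]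
  simp only [Finset.sum_apply, Pi.smul_apply, Pi.single_apply, Finset.sum_smul]
  rw [Finset.sum_comm]
  refine Finset.sum_congr rfl fun v _ => ?_
  simp [ite_smul]

/-- substitution of forms -/
def sb (g : (j : J) → io j → k[X]) : MvPolynomial (Vr io) ℂ →ₐ[ℂ] k[X] :=
  MvPolynomial.aeval fun v : Vr io => g v.1 v.2

omit [∀ j, DecidableEq (io j)] in
theorem MZ.sb {q : MvPolynomial (Vr io) ℂ} {κ : J → ℤ} (h : MZ q κ) {d : J → ℕ}
    {g : (j : J) → io j → k[X]} (hg : ∀ j i, (g j i).natDegree ≤ d j) :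
    DL (∑ j, κ j * d j) (sb g q) ∧
      ∀ p, ev (∑ j, κ j * d j) p (sb g q) = pv (fun j i => hv (d j) (g j i) p) q := by
  have key : ∀ s ∈ q.support, DL (∑ j, κ j * d j) (∏ v : Vr io, g v.1 v.2 ^ s v) ∧ ∀ p,
      ev (∑ j, κ j * d j) p (∏ v : Vr io, g v.1 v.2 ^ s v) =
        ∏ v : Vr io, hv (d v.1) (g v.1 v.2) p ^ s v := by
    intro s hs
    have h1 : ∑ j, κ j * d j = ∑ v : Vr io, ∑ _i ∈ Finset.range (s v), (d v.1 : ℤ) := by
      have := sum_weight s fun j => (d j : ℤ)
      rw [h (MvPolynomial.mem_support_iff.1 hs)] at this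
      simpa using this
    have h2 : ∀ v : Vr io, DL (∑ _i ∈ Finset.range (s v), (d v.1 : ℤ)) (g v.1 v.2 ^ s v) ∧ ∀ p,
        ev (∑ _i ∈ Finset.range (s v), (d v.1 : ℤ)) p (g v.1 v.2 ^ s v) =
          hv (d v.1) (g v.1 v.2) p ^ s v := by
      intro v
      have := ev_prod (Finset.range (s v)) (fun _ => (d v.1 : ℤ)) (fun _ => g v.1 v.2)
        fun _ _ => DL_nat.2 (hg _ _)
      simpa only [Finset.prod_const, Finset.card_range, ev_eq_hv] using this
    rw [h1]
    have := ev_prod Finset.univ _ _ fun v _ => (h2 v).1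
    exact ⟨this.1, fun p => (this.2 p).trans (Finset.prod_congr rfl fun v _ => (h2 v).2 p)⟩
  have h3 : Tree87.sb g q = ∑ s ∈ q.support,
      algebraMap ℂ k (q.coeff s) • ∏ v : Vr io, g v.1 v.2 ^ s v := by
    rw [Tree87.sb, MvPolynomial.aeval_def, MvPolynomial.eval₂_eq']
    exact Finset.sum_congr rfl fun s _ => by rw [smul_eq_C_mul]; rfl
  rw [h3]
  refine ⟨DL.sum fun s hs => (key s hs).1.smul _, fun p => ?_⟩
  rw [map_sum, pv, MvPolynomial.aeval_def, MvPolynomial.eval₂_eq']
  exact Finset.sum_congr rfl fun s hs => by rw [map_smul, (key s hs).2, smul_eq_mul]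

omit [∀ j, DecidableEq (io j)] in
/-- scaling of the coordinates -/
theorem MZ.pv_scl {q : MvPolynomial (Vr io) ℂ} {κ : J → ℤ} (h : MZ q κ) {c : J → k}
    (hc : ∀ j, c j ≠ 0) (y : Pnt io k) :
    pv (fun j i => c j * y j i) q = (∏ j, c j ^ κ j) * pv y q := by
  simp only [pv, MvPolynomial.aeval_def, MvPolynomial.eval₂_eq', Finset.mul_sum]
  refine Finset.sum_congr rfl fun s hs => ?_
  have h1 := sum_weight s fun j => Additive.ofMul (Units.mk0 (c j) (hc j))
  rw [h (MvPolynomial.mem_support_iff.1 hs)] at h1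
  have h2 := congrArg (fun u : Additive kˣ => ((Additive.toMul u : kˣ) : k)) h1
  simp only [toMul_sum, toMul_zsmul, toMul_nsmul, toMul_ofMul, Units.coe_prod,
    Units.val_zpow_eq_zpow_val, Units.val_pow_eq_pow_val, Units.val_mk0] at h2
  rw [h2]
  simp only [mul_pow, Finset.prod_mul_distrib]
  ring

omit [∀ j, DecidableEq (io j)] in
/-- a matrix of multihomogeneous polynomials along a tree -/
theorem hm_sb {A B : Type} [Fintype A] {kk' : B → J → ℕ} {kk : A → J → ℕ}
    {ρ : B → A → MvPolynomial (Vr io) ℂ}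
    (hρ : ∀ b a, MZ (ρ b a) fun j => (kk' b j : ℤ) - kk a j) {t : Tr k J io} (ht : t.OK) :
    HM kk' kk (fun y b a => pv y (ρ b a)) t fun v b a => sb (t.vg v) (ρ b a) := by
  intro v
  have h1 : ∀ b a, vdz kk' t v b - vdz kk t v a =
      ∑ j, ((kk' b j : ℤ) - kk a j) * t.vd v j := fun b a => by
    simp only [vdz, dot, sub_mul, Finset.sum_sub_distrib]; push_cast; rfl
  refine ⟨fun b a => ?_, fun p => funext fun b => funext fun a => ?_⟩
  · rw [h1]; exact ((hρ b a).sb (ht.natDegree_le v)).1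
  · simp only [evM]
    rw [h1]; exact ((hρ b a).sb (ht.natDegree_le v)).2 p

omit [∀ j, DecidableEq (io j)] in
/-- a multihomogeneous polynomial gives a section on the tree -/
theorem isSec_sb {q : MvPolynomial (Vr io) ℂ} {κ : J → ℕ} (h : MH q κ) {t : Tr k J io}
    (ht : t.OK) : (t.IsSec κ fun v => sb (t.vg v) q) ∧
      ∀ x, val κ t (fun v => sb (t.vg v) q) x = pv (t.ev x) q := by
  have h1 : ∀ v, (∑ j, (κ j : ℤ) * t.vd v j) = (dot κ (t.vd v) : ℕ) := fun v => by
    simp only [dot]; push_cast; rfl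
  have h2 := fun v => (MZ.of_MH h).sb (ht.natDegree_le v)
  simp only [h1] at h2
  have h3 : ∀ x, val κ t (fun v => sb (t.vg v) q) x = pv (t.ev x) q := fun x =>
    (ev_eq_hv _ _ _).symm.trans ((h2 x.1).2 x.2)
  exact ⟨isSec_of_same ht (fun v => DL_nat.1 (h2 v).1) fun x y hxy => by
    rw [h3, h3, same_ev hxy], h3⟩

end Crest.Agent.X262.Tree87
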